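import Crest.Agent.X262.Min33.Min

/-!
# Row 262, MIN (helper33), part 6: the forms consumed by other packages

`minStmt` is `Int23.MinStmt` and `castStmt` is `Min71.CastStmt`, unfolded.
-/

set_option autoImplicit false

namespace Crest.Agent.X262.Min33

open Crest.Agent.X277 Crest.Agent.X277.BD Crest.Agent.X277.Lef Crest.Agent.X277.Pst
open Crest.Agent.X277.BD.Br Crest.Agent.X262.Geo Crest.Agent.X262.Surf

theorem minStmt (hR : RRStmt) (hS : SerStmt) (F : Type) [Field F] [Algebra ℂ F]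
    [Algebra.EssFiniteType ℂ F] (P : PModel ℂ F) (b : B2 F) (h : Eff (kP P b)) :
    ∃ P₀ : PModel ℂ F, Nef (kP P₀ b) :=
  (exists_min hR hS one_pos (by rwa [one_nsmul])).imp fun _ h => h.2.1

theorem castStmt (hR : RRStmt) (hS : SerStmt) (F : Type) [Field F] [Algebra ℂ F]
    [Algebra.EssFiniteType ℂ F] (P : PModel ℂ F) (b : B2 F) (V : RZ ℂ F) (hV : Prm (oP P) V)
    (h1 : bnum [dv P V, dv P V] = -1) (h2 : bnum [kP P b, dv P V] = -1) :
    ∃ P₀ : PModel ℂ F, oP P₀ ∈ On P ∧ (∀ a ∈ On P, bnum [a, dv P V] = 0 → a ∈ On P₀) ∧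
      kP P b = kP P₀ b + dv P V :=
  (cast (rrp hR hS P b) hV (by omega) (by rw [bnum_swap]; omega)).imp fun _ h =>
    ⟨h.le, fun a ha h0 => (h.on a).2 ⟨ha, h0⟩, h.kP_eq⟩

end Crest.Agent.X262.Min33
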