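import Crest.Agent.X277.Cns.Mk

/-!
# Row 262, MIN (helper33), part 0: commutative algebra

* `noeth_int`, `exists_fg` : the normalisation of an affine domain is finite;
* `rees`      : valuation ideals of a finitely generated ideal form a finite module;
* `crd_of_sq` : Nakayama; `fs_of_crd` : coordinates give smoothness.
-/

set_option autoImplicit false

noncomputable section

namespace Crest.Agent.X262.Min33

open Crest.Agent.X277 Crest.Agent.X277.Lef Crest.Agent.X277.AN.G1 Module Polynomial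
open scoped KaehlerDifferential

theorem noeth_int {E F : Type*} [Field E] [Field F] [Algebra E F] [CharZero E]
    [Algebra.EssFiniteType E F] (B : Type*) [CommRing B] [IsDomain B] [Algebra E B] [Algebra B F]
    [IsScalarTower E B F] [Algebra.FiniteType E B] [FaithfulSMul B F] [Algebra.IsAlgebraic B F] :
    IsNoetherian B (integralClosure B F) := by
  obtain ⟨m, g, hg1, hg2⟩ := exists_integral_inj_algHom_of_fg E B
  let P := MvPolynomial (Fin m) E
  let _ : Algebra P B := (g : P →+* B).toAlgebra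
  let _ : Algebra P F := ((algebraMap B F).comp (g : P →+* B)).toAlgebra
  have : IsScalarTower P B F := IsScalarTower.of_algebraMap_eq fun _ => rfl
  have : IsScalarTower E P F := IsScalarTower.of_algebraMap_eq fun c => by
    rw [IsScalarTower.algebraMap_apply E B F]
    exact (congrArg (algebraMap B F) (g.commutes c)).symm
  have : Algebra.IsIntegral P B := ⟨hg2⟩
  have : FaithfulSMul P F :=
    (faithfulSMul_iff_algebraMap_injective P F).2 ((FaithfulSMul.algebraMap_injective B F).comp hg1)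
  have : Algebra.IsAlgebraic P F := Algebra.IsAlgebraic.trans P B F
  let L := FractionRing P
  let _ : Algebra L F := FractionRing.liftAlgebra P F
  have : IsScalarTower E L F := IsScalarTower.of_algebraMap_eq fun c => by
    rw [IsScalarTower.algebraMap_apply E P L, ← IsScalarTower.algebraMap_apply P L F,
      ← IsScalarTower.algebraMap_apply]
  have : Algebra.IsAlgebraic L F := IsFractionRing.comap_isAlgebraic_iff.1 ‹_›
  have : Algebra.EssFiniteType L F := Algebra.EssFiniteType.of_comp E L F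
  have : FiniteDimensional L F := Algebra.finite_of_essFiniteType_of_isAlgebraic
  have : CharZero L := algebraRat.charZero L
  have : IsIntegralClosure (integralClosure B F) P F := ⟨Subtype.val_injective, fun {x} =>
    ⟨fun h => ⟨⟨x, h.tower_top⟩, rfl⟩, fun ⟨y, h⟩ => h ▸ isIntegral_trans (R := P) (y : F) y.2⟩⟩
  exact isNoetherian_of_tower P (IsIntegralClosure.isNoetherian P L F (integralClosure B F))

theorem exists_fg {E F : Type*} [Field E] [Field F] [Algebra E F] [CharZero E]
    [Algebra.EssFiniteType E F] {S : Set F} (hS : S.Finite)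
    (hB : ∀ f : F, IsAlgebraic (Algebra.adjoin E S) f) :
    ∃ T : Finset F, ∀ x, x ∈ Algebra.adjoin E (T : Set F) ↔ IsIntegral (Algebra.adjoin E S) x := by
  have : Algebra.FiniteType E (Algebra.adjoin E S) := Algebra.FiniteType.adjoin_of_finite hS
  have : Algebra.IsAlgebraic (Algebra.adjoin E S) F := ⟨hB⟩
  have := noeth_int (E := E) (F := F) (Algebra.adjoin E S)
  have h1 : Algebra.FiniteType E (integralClosure (Algebra.adjoin E S) F) :=
    .trans (S := Algebra.adjoin E S) inferInstance inferInstance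
  obtain ⟨T, hT⟩ := (Subalgebra.fg_iff_finiteType
    ((integralClosure (Algebra.adjoin E S) F).restrictScalars E)).2 h1
  exact ⟨T, fun x => by rw [hT]; rfl⟩

variable {F : Type} [Field F] [Algebra ℂ F]

/-- the valuation ideals of the powers of `H` are generated in bounded degree -/
theorem rees [Algebra.EssFiniteType ℂ F] {S H : Set F} (hS : S.Finite) (hH : H.Finite)
    (hB : ∀ f : F, IsAlgebraic (Algebra.adjoin ℂ S) f) (h0 : ∃ h ∈ H, h ≠ 0) (I : ℕ → Set F)
    (hI : ∀ n, ∀ f ∈ I n, ∀ V : ValuationSubring F, Cns.KV ℂ V → (∀ y ∈ S, y ∈ V) →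
      ∃ h ∈ H, h ≠ 0 ∧ f / h ^ n ∈ V) :
    ∃ n0 : ℕ, ∀ N : ℕ → Submodule ℂ F, (∀ n ≤ n0, ∀ f ∈ I n, f ∈ N n) →
      (∀ n, ∀ y ∈ S, ∀ f ∈ N n, y * f ∈ N n) → (∀ n, ∀ h ∈ H, ∀ f ∈ N n, h * f ∈ N (n + 1)) →
        ∀ n, ∀ f ∈ I n, f ∈ N n := by
  classical
  let L := RatFunc F
  let ι : F[X] →ₐ[ℂ] L := IsScalarTower.toAlgHom ℂ F[X] L
  have hι : Function.Injective ι := IsFractionRing.injective F[X] L
  let S' : Set F[X] := C '' S ∪ (fun h => C h * X) '' H
  let B := Algebra.adjoin ℂ S'
  have : Algebra.FiniteType ℂ B :=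
    Algebra.FiniteType.adjoin_of_finite ((hS.image _).union (hH.image _))
  have : Algebra.EssFiniteType F[X] L :=
    Algebra.EssFiniteType.of_isLocalization (S := L) (nonZeroDivisors F[X])
  have : Algebra.EssFiniteType F L := Algebra.EssFiniteType.comp F F[X] L
  have : Algebra.EssFiniteType ℂ L := Algebra.EssFiniteType.comp ℂ F L
  have hf : FaithfulSMul B L :=
    (faithfulSMul_iff_algebraMap_injective B L).2 (hι.comp Subtype.val_injective)
  have hC : ∀ f : F, IsAlgebraic B (C f : F[X]) := fun f => by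
    let φ : Algebra.adjoin ℂ S →ₐ[ℂ] B :=
      ((IsScalarTower.toAlgHom ℂ F F[X]).comp (Algebra.adjoin ℂ S).val).codRestrict B fun y =>
        (Algebra.adjoin_le (S := B.comap (IsScalarTower.toAlgHom ℂ F F[X]))
          fun z hz => Algebra.subset_adjoin (Or.inl ⟨z, hz, rfl⟩)) y.2
    exact (hB f).ringHom_of_comp_eq (φ : _ →+* _) (C : F →+* F[X])
      (fun a b h => Subtype.ext (C_injective (congrArg Subtype.val h))) rfl
  have hX : IsAlgebraic B (X : F[X]) := by
    obtain ⟨h, h1, h2⟩ := h0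
    have h3 : IsAlgebraic B (C h * X : F[X]) :=
      isAlgebraic_algebraMap (⟨_, Algebra.subset_adjoin (Or.inr ⟨h, h1, rfl⟩)⟩ : B)
    have h4 := (hC h⁻¹).mul h3
    rwa [← mul_assoc, ← C_mul, inv_mul_cancel₀ h2, C_1, one_mul] at h4
  have : Algebra.IsAlgebraic B F[X] := ⟨fun p => by
    induction p using Polynomial.induction_on' with
    | add p q hp hq => exact hp.add hq
    | monomial n a => rw [← C_mul_X_pow_eq_monomial]; exact (hC a).mul (hX.pow n)⟩
  have : Algebra.IsAlgebraic F[X] L := IsLocalization.isAlgebraic L (nonZeroDivisors F[X])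
  have : Algebra.IsAlgebraic B L := Algebra.IsAlgebraic.trans B F[X] L
  have hN := noeth_int (E := ℂ) (F := L) B
  let G : Set F[X] := {p | ∃ n, ∃ f ∈ I n, p = C f * X ^ n}
  let ψ : F[X] →ₗ[B] L := (IsScalarTower.toAlgHom B F[X] L).toLinearMap
  have h1 : (Submodule.span B G).map ψ ≤ (integralClosure B L).toSubmodule := by
    rw [Submodule.map_span_le]
    rintro _ ⟨n, f, hf, rfl⟩
    have h2 : IsIntegral (B.map ι) (ι (C f * X ^ n)) := Cns.isIntegral_of_val fun W hW => by
      have h3 : ∀ p ∈ S', ι p ∈ W := fun p hp => hW _ ⟨p, Algebra.subset_adjoin hp, rfl⟩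
      obtain ⟨h, h4, h5, h6⟩ := hI n f hf (W.comap ((ι : F[X] →+* L).comp C))
        (fun c => hW _ ⟨_, B.algebraMap_mem c, rfl⟩) fun y hy => h3 _ (Or.inl ⟨y, hy, rfl⟩)
      have h7 : C f * X ^ n = C (f / h ^ n) * (C h * X) ^ n := by
        rw [mul_pow, ← mul_assoc, ← C_pow, ← C_mul, div_mul_cancel₀ _ (pow_ne_zero n h5)]
      rw [h7, map_mul, map_pow]
      exact mul_mem h6 (pow_mem (h3 _ (Or.inr ⟨h, h4, rfl⟩)) n)
    exact IsIntegral.map_of_comp_eq ((B.equivMapOfInjective ι hι).symm : _ →+* B) (RingHom.id L)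
      (by ext y; obtain ⟨y, rfl⟩ := (B.equivMapOfInjective ι hι).surjective y; simp; rfl) h2
  have h2 : (Submodule.span B G).FG :=
    Submodule.fg_of_fg_map_injective ψ hι (isNoetherian_submodule.1 hN _ h1)
  obtain ⟨T, hT, h3⟩ := (Submodule.fg_span_iff_fg_span_finset_subset G).1 h2
  choose! d f h4 h5 using fun p (hp : p ∈ T) => hT hp
  refine ⟨T.sup d, fun N h6 h7 h8 n g hg => ?_⟩
  let M : Submodule ℂ F[X] :=
    { carrier := {p | ∀ n, p.coeff n ∈ N n}
      add_mem' := fun ha hb n => by rw [coeff_add]; exact add_mem (ha n) (hb n)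
      zero_mem' := fun n => zero_mem _
      smul_mem' := fun c _ ha n => by rw [coeff_smul]; exact (N n).smul_mem c (ha n) }
  have h9 : ∀ q ∈ B, ∀ p ∈ M, q * p ∈ M := fun q hq => by
    induction hq using Algebra.adjoin_induction with
    | mem q hq =>
      intro p hp n
      rcases hq with ⟨y, hy, rfl⟩ | ⟨y, hy, rfl⟩
      · rw [coeff_C_mul]
        exact h7 n y hy _ (hp n)
      · rw [mul_assoc, coeff_C_mul]
        cases n with
        | zero => simp
        | succ n => rw [coeff_X_mul]; exact h8 n y hy _ (hp n)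
    | algebraMap c => exact fun p hp => Algebra.smul_def c p ▸ M.smul_mem c hp
    | add q q' _ _ h h' => exact fun p hp => (add_mul q q' p).symm ▸ add_mem (h p hp) (h' p hp)
    | mul q q' _ _ h h' => exact fun p hp => (mul_assoc q q' p).symm ▸ h _ (h' p hp)
  have h10 : ∀ p ∈ Submodule.span B (T : Set F[X]), p ∈ M := fun p hp => by
    induction hp using Submodule.span_induction with
    | mem p hp =>
      intro n
      rw [h5 p hp, coeff_C_mul, coeff_X_pow]
      split_ifs with h
      · rw [mul_one, h]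
        exact h6 _ (Finset.le_sup hp) _ (h4 p hp)
      · simp
    | zero => exact zero_mem _
    | add p q _ _ h h' => exact add_mem h h'
    | smul q p _ h => exact h9 q q.2 p h
  have h11 := h10 (C g * X ^ n) (h3 ▸ Submodule.subset_span ⟨n, g, hg, rfl⟩) n
  rwa [coeff_C_mul, coeff_X_pow, if_pos rfl, mul_one] at h11

variable {L : LP F} {n : ℕ} {z : Fin n → F} {B : Subalgebra ℂ F}

/-- Nakayama -/
theorem crd_of_sq [IsNoetherianRing L.O] (hL : L.Of B) (hz : ∀ l, z l ∈ L.O)
    (hv : ∀ l, L.v (z l) = 0) (h : ∀ N : Submodule ℂ F, (∀ a ∈ L.O, ∀ g ∈ N, a * g ∈ N) →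
      (∀ l, z l ∈ N) → (∀ a ∈ L.O, ∀ c ∈ L.O, L.v a = 0 → L.v c = 0 → a * c ∈ N) →
        ∀ f ∈ B, L.v f = 0 → f ∈ N) : L.Crd z := by
  let J : Ideal L.O := Ideal.span (Set.range fun l => (⟨z l, hz l⟩ : L.O))
  have h1 : L.mx ≤ J := by
    refine Submodule.le_of_le_smul_of_le_jacobson_bot (IsNoetherian.noetherian _)
      LP.mx_le_jacobson fun f hf => ?_
    obtain ⟨a, ha, c, hc, h1, h2⟩ := hL.loc f f.2
    obtain ⟨g, h3, h4⟩ := h (((J ⊔ L.mx • L.mx).restrictScalars ℂ).map L.O.val.toLinearMap)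
      (by
        rintro a ha _ ⟨g, hg, rfl⟩
        exact ⟨⟨a, ha⟩ * g, (J ⊔ L.mx • L.mx).mul_mem_left _ hg, rfl⟩)
      (fun l => ⟨⟨z l, hz l⟩, Submodule.mem_sup_left (Ideal.subset_span ⟨l, rfl⟩), rfl⟩)
      (fun a ha c hc h1 h2 => ⟨⟨a, ha⟩ * ⟨c, hc⟩, Submodule.mem_sup_right
        (Ideal.mul_mem_mul h1 h2), rfl⟩) a ha
      (by rw [← h2, L.v_mul f.2 (hL.le hc), L.mem_mx.1 hf, zero_mul])
    have h5 : f = ⟨c⁻¹, L.inv_mem h1⟩ * g := Subtype.ext (by
      have h6 : (g : F) = a := h4
      rw [MulMemClass.coe_mul, h6, ← h2, mul_comm, mul_inv_cancel_right₀ (LP.ne_zero_of_ne h1)])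
    exact h5 ▸ Ideal.mul_mem_left _ _ h3
  refine ⟨hz, fun f hf => ?_⟩
  obtain ⟨c, hc⟩ := Ideal.mem_span_range_iff_exists_fun.1 (h1 (LP.sub_v_mem_mx2 hf))
  refine ⟨fun l => c l, fun l => (c l).2, ?_⟩
  have h2 := congrArg Subtype.val hc
  simp only [AddSubmonoidClass.coe_finsetSum, MulMemClass.coe_mul] at h2
  simp only [hv, map_zero, sub_zero, h2, add_sub_cancel]

/-- coordinates give smoothness -/
theorem fs_of_crd (hL : L.Of B) [Algebra.FiniteType ℂ B] [IsFractionRing B F]
    (b : Basis (Fin n) F Ω[F⁄ℂ]) (hz : L.Crd z) : Algebra.FormallySmooth ℂ L.O := by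
  let _ : Algebra B L.O := (Subalgebra.inclusion hL.le).toAlgebra
  have : IsScalarTower ℂ B L.O := IsScalarTower.of_algebraMap_eq fun _ => rfl
  let φ : B →ₐ[ℂ] ℂ := L.hom.comp (Subalgebra.inclusion hL.le)
  have : (RingHom.ker φ).IsPrime := RingHom.ker_isPrime φ
  have h1 : IsLocalization.AtPrime L.O (RingHom.ker φ) := by
    convert hL.isLocalization using 1
    ext a
    exact (L.isUnit_iff (f := ⟨a, hL.le a.2⟩)).symm
  have hj := hz.jac_ne hL.fin b
  let d : Fin n → Derivation ℂ L.O L.O := fun l =>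
    { toFun f := ⟨pdD hj l f, pdD_apply hj l f ▸ hz.pd_mem hL.fin b l f.2⟩
      map_add' f g := Subtype.ext (map_add _ _ _)
      map_smul' c f := Subtype.ext ((pdD hj l).map_smul c f)
      map_one_eq_zero' := Subtype.ext (pdD hj l).map_one_eq_zero
      leibniz' f g := Subtype.ext ((pdD hj l).leibniz f g) }
  refine Res.SmCrit.formallySmooth_of_coords φ (RingHom.ker φ) (fun _ => RingHom.mem_ker)
    (fun l => (⟨z l - algebraMap ℂ F (L.v (z l)), sub_mem (hz.mem l) (L.O.algebraMap_mem _)⟩ : L.O))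
    ?_ d fun i j => Subtype.ext ?_
  · rw [IsLocalization.AtPrime.map_eq_maximalIdeal, L.maximalIdeal_eq]
    refine le_antisymm (fun f hf => ?_) (Ideal.span_le.2 ?_)
    · obtain ⟨c, h2, h3⟩ := hz.gen f f.2
      rw [L.mem_mx.1 hf, map_zero, zero_add] at h3
      refine Ideal.mem_span_range_iff_exists_fun.2 ⟨fun l => ⟨c l, h2 l⟩, Subtype.ext ?_⟩
      rw [h3, AddSubmonoidClass.coe_finsetSum]
      rfl
    · rintro _ ⟨l, rfl⟩
      exact LP.sub_v_mem_mx2 (hz.mem l)
  · change pdD hj i (z j - _) = _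
    rw [map_sub, Derivation.map_algebraMap, sub_zero, pdD_apply, pd_self hj]
    split_ifs <;> rfl

end Crest.Agent.X262.Min33
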