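import Crest.Agent.X262.Min33.Ctr
import Crest.Agent.X262.Min33.Alg

/-!
# Row 262, MIN (helper33), part 4: Castelnuovo's contraction theorem

* `Ctr.frac`, `Ctr.fs_off`, `Ctr.fs_on` : the local rings of the image;
* `exists_cast` : a smooth model whose hyperplane class contracts the curve.
-/

set_option autoImplicit false
set_option linter.unusedSectionVars false

noncomputable section

namespace Crest.Agent.X262.Min33

open Crest.Agent.X277 Crest.Agent.X277.BD Crest.Agent.X277.BD.Cyc Crest.Agent.X277.Lef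
open Crest.Agent.X277.AN.G1 Crest.Agent.X277.BD.Br Module
open Crest.Agent.X277.Cns (Ov chI)
open scoped KaehlerDifferential

variable {F : Type} [Field F] [Algebra ℂ F] [Algebra.EssFiniteType ℂ F]
variable {P : PModel ℂ F} {κ : Type} [Field κ] [Algebra ℂ κ] [Algebra.EssFiniteType ℂ κ]
variable {C : Cv P κ} {G a : BD ℂ F} {f t : F} {B : Subalgebra ℂ F} {L : LP F} {W : RZ ℂ F}

namespace Ctr

variable (h : Ctr C G)
include h

theorem exists_y (i : Fin (P.N + 1)) : ∃ u ∈ G.Sec, u ≠ 0 ∧ (∀ j, P.y j / P.y i * u ∈ G.Sec) ∧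
    ∀ V : RZ ℂ F, V.v (P.y i) = (oP P).val V → C.E.val V = 1 → V.v u = G.val V := by
  obtain ⟨m, n, w, h1, rfl⟩ := h.lin
  have h2 : ∀ j, P.y j / P.y i * (P.y i ^ (m + 1) * w) ∈
      ((m + 1) • oP P + n • C.E + pr ℂ w).Sec := fun j => by
    have h3 := mul_mem_Sec (mul_mem_Sec (mul_mem_Sec (pow_mem_Sec (y_mem_Sec i) m) (y_mem_Sec j))
      (pow_mem_Sec (nonneg_iff.1 C.nonneg) n)) (mem_Sec_pr (k := ℂ) w)
    rw [← succ_nsmul] at h3
    convert h3 using 1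
    have := P.y_ne i
    field_simp
    ring
  refine ⟨P.y i ^ (m + 1) * w, by simpa [P.y_ne i] using h2 i,
    mul_ne_zero (pow_ne_zero _ (P.y_ne i)) h1, h2, fun V h3 h4 => ?_⟩
  simp [h3, h4, val_pr h1]

theorem frac (ht : t ≠ 0) (hB : ∀ s ∈ G.Sec, s / t ∈ B) (f : F) :
    ∃ a ∈ B, ∃ c ∈ B, c ≠ 0 ∧ f = a / c := by
  obtain ⟨u, h1, h2, h3, -⟩ := h.exists_y 0
  have h4 : chart ℂ P.y 0 ≤ (IntermediateField.adjoin ℂ (B : Set F)).toSubalgebra :=
    Algebra.adjoin_le (by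
      rintro _ ⟨j, rfl⟩
      have h4 := div_mem (IntermediateField.subset_adjoin ℂ (B : Set F) (hB _ (h3 j)))
        (IntermediateField.subset_adjoin ℂ (B : Set F) (hB _ h1))
      rwa [div_div_div_cancel_right₀ ht, mul_div_cancel_right₀ _ h2] at h4)
  obtain ⟨a, ha, c, hc, -, rfl⟩ := P.frac f
  obtain ⟨a', ha', c', hc', h5⟩ := IntermediateField.mem_adjoin_iff_div.1
    (div_mem (h4 ha) (h4 hc) : a / c ∈ IntermediateField.adjoin ℂ (B : Set F))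
  rw [Algebra.adjoin_eq] at ha' hc'
  by_cases h6 : c' = 0
  · exact ⟨0, zero_mem _, 1, one_mem _, one_ne_zero, by simp [h5, h6]⟩
  · exact ⟨a', ha', c', hc', h6, h5⟩

/-- off the curve the image is isomorphic to the surface -/
theorem fs_off (hL : L.Of B) (hW : ∀ f ∈ L.O, W.v f = 1 ↔ L.v f ≠ 0) (ht : W.v t = G.val W)
    (hB : ∀ s ∈ G.Sec, s / t ∈ B) (hB' : ∀ x : Pts P, (lp x).Dom L → B ≤ (lp x).O)
    (hE : C.E.val W = 1) : Algebra.FormallySmooth ℂ L.O := by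
  obtain ⟨i, hi, -⟩ := exists_chart (P := P) W
  obtain ⟨u, h1, h2, h3, h4⟩ := h.exists_y i
  obtain ⟨x, -, hx⟩ := AN.G1.exists_dom (P := P) (i := i) L fun j => by
    have h5 := LP.div_mem (hL.le (hB _ (h3 j))) ((hW _ (hL.le (hB _ h1))).1
      (by rw [map_div₀, h4 W hi hE, ht, div_self (val_ne _ _)]))
    rwa [div_div_div_cancel_right₀ (ne_of_val ht), mul_div_cancel_right₀ _ h2] at h5
  exact Cns.eq_of_dom_of hx hL (hB' x hx) ▸ Cns.lp_fs x

theorem alg (hG : Free G) : ∃ S : Set F, S.Finite ∧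
    (∀ f : F, IsAlgebraic (Algebra.adjoin ℂ S) f) ∧
    (∀ V : RZ ℂ F, (∀ y ∈ S, y ∈ V.1) ↔ G.val V = 1) ∧
      ∀ f : F, IsIntegral (Algebra.adjoin ℂ S) f ↔ f ∈ II C G 0 := by
  obtain ⟨r, g, -, g1, g2⟩ := hG.exists_fam
  have h1 : ∀ V : RZ ℂ F, (∀ y ∈ Set.range g, y ∈ V.1) ↔ G.val V = 1 := fun V => by
    refine ⟨fun h1 => le_antisymm ?_ (h.nonneg V), fun h1 => ?_⟩
    · obtain ⟨i, hi⟩ := g2 V
      exact hi ▸ RZ.le_one_iff.2 (h1 _ ⟨i, rfl⟩)
    · rintro _ ⟨i, rfl⟩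
      exact RZ.le_one_iff.1 (h1 ▸ g1 i V)
  have h2 : ∀ f : F, IsIntegral (Algebra.adjoin ℂ (Set.range g)) f ↔ f ∈ II C G 0 := fun f =>
    ⟨fun hf => mem_II_zero.2 fun V hV => Cns.mem_of_isIntegral hf (V.2.adjoin_le ((h1 V).2 hV)),
      fun hf => Cns.isIntegral_of_val fun V hV => mem_II_zero.1 hf ⟨V, Cns.KV.of_le hV⟩
        ((h1 _).1 fun y hy => hV y (Algebra.subset_adjoin hy))⟩
  refine ⟨Set.range g, Set.finite_range g, fun f => ?_, h1, h2⟩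
  obtain ⟨a, ha, c, hc, -, rfl⟩ := h.frac (B := (integralClosure (Algebra.adjoin ℂ (Set.range g))
    F).restrictScalars ℂ) one_ne_zero
    (fun s hs => (h2 _).2 (mem_II (N := 1) (by simpa using hs))) f
  exact div_eq_mul_inv a c ▸ (IsIntegral.isAlgebraic ha).mul (IsIntegral.isAlgebraic hc).inv

/-- the image of the curve is a smooth point -/
theorem crd (hG : Free G) [IsNoetherianRing L.O] (hL : L.Of B) (h0 : ∀ f ∈ II C G 0, f ∈ L.O)
    (h1 : ∀ f ∈ II C G 1, L.v f = 0) (hB : ∀ f ∈ B, ∃ t, L.v t ≠ 0 ∧ f * t ∈ II C G 0) :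
    ∃ z : Fin 2 → F, L.Crd z := by
  obtain ⟨c, X, Y, h2, hX, hY, h3⟩ := h.exists_xy hG
  obtain ⟨S, hS, h4, h5, -⟩ := h.alg hG
  obtain ⟨r, η, η0, η1, η2⟩ := h2.exists_fam
  have hη : ∀ j, η j ∈ II C G 1 := fun j => mem_II (N := c) (by rw [one_nsmul]; exact η1 j)
  have h10 : ∀ f ∈ II C G 1, f ∈ L.O := fun f hf => h0 f (II_anti zero_le_one hf)
  obtain ⟨n0, h6⟩ := rees hS (Set.finite_range η) h4 ⟨_, ⟨0, rfl⟩, η0 0⟩ (fun n => II C G n)
    fun n f hf V hV hVS => by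
      obtain ⟨j, hj⟩ := η2 ⟨V, hV⟩
      have h6 := (h5 ⟨V, hV⟩).1 hVS
      refine ⟨_, ⟨j, rfl⟩, η0 j, (RZ.le_iff (V := ⟨V, hV⟩) (pow_ne_zero n (η0 j))).1 ?_⟩
      simpa [hj, h6] using hf ⟨V, hV⟩ h6
  refine ⟨![X, Y], crd_of_sq hL (Fin.forall_fin_two.2 ⟨h10 X hX, h10 Y hY⟩)
    (Fin.forall_fin_two.2 ⟨h1 X hX, h1 Y hY⟩) fun N hN hz hq f hf hv => ?_⟩
  obtain ⟨t, ht, h7⟩ := hB f hf
  have h8 : ∀ n, ∃ q ∈ N, f * t - q ∈ II C G (n + 1) := fun n => by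
    induction n with
    | zero =>
      obtain ⟨q, h8, h9⟩ := h3 0 _ h7
      obtain ⟨u, rfl⟩ : ∃ u : ℂ, algebraMap ℂ F u = q := by
        simpa [Submodule.mem_span_singleton, Algebra.algebraMap_eq_smul_one] using h8
      have h11 := h1 _ h9
      rw [LP.v_sub (h0 _ h7) (L.O.algebraMap_mem u), L.v_mul (hL.le hf) (LP.mem_of_ne ht), hv,
        L.v_alg, zero_mul, zero_sub, neg_eq_zero] at h11
      exact ⟨_, by simp [h11], h9⟩
    | succ n ih =>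
      obtain ⟨q, h8, h9⟩ := ih
      obtain ⟨q', h11, h12⟩ := h3 _ _ h9
      refine ⟨q + q', add_mem h8 (Submodule.span_le.2 ?_ h11), sub_sub (f * t) q q' ▸ h12⟩
      rintro _ ⟨⟨i, hi⟩, rfl⟩
      cases i with
      | zero => simpa [pow_succ] using hN _ (pow_mem (h10 X hX) n) _ (hz 0)
      | succ i =>
        have h13 := hN _ (mul_mem (pow_mem (h10 X hX) (n + 1 - (i + 1))) (pow_mem (h10 Y hY) i))
          _ (hz 1)
        rwa [mul_assoc, Matrix.cons_val_one, Matrix.cons_val_zero, ← pow_succ] at h13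
  have hSI : ∀ y ∈ S, y ∈ II C G 0 := fun y hy => mem_II_zero.2 fun V hV => (h5 V).2 hV y hy
  have h9 := h6 (fun n => II C G 0 ⊓ ((⨅ _ : n0 < n, II C G 1) ⊓ ⨅ _ : n0 + 1 < n, N))
    (fun n hn f hf => by
      simp only [Submodule.mem_inf, Submodule.mem_iInf]
      exact ⟨II_anti n.zero_le hf, fun h => by omega, fun h => by omega⟩)
    (fun n y hy f hf => by
      simp only [Submodule.mem_inf, Submodule.mem_iInf] at hf ⊢
      exact ⟨mul_mem_II (n := 0) (n' := 0) (hSI y hy) hf.1,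
        fun h => mul_mem_II (n := 0) (n' := 1) (hSI y hy) (hf.2.1 h),
        fun h => hN _ (h0 _ (hSI y hy)) _ (hf.2.2 h)⟩)
    (by
      rintro n _ ⟨j, rfl⟩ f hf
      simp only [Submodule.mem_inf, Submodule.mem_iInf] at hf ⊢
      have h9 : η j * f ∈ II C G 1 := mul_mem_II (n := 1) (n' := 0) (hη j) hf.1
      exact ⟨II_anti zero_le_one h9, fun _ => h9, fun h =>
        hq _ (h10 _ (hη j)) _ (h0 _ hf.1) (h1 _ (hη j)) (h1 _ (hf.2.1 (by omega)))⟩)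
  obtain ⟨q, h11, h12⟩ := h8 (n0 + 1)
  have h13 := h9 _ _ h12
  simp only [Submodule.mem_inf, Submodule.mem_iInf] at h13
  have h14 := hN _ (L.inv_mem ht) _ (add_mem (h13.2.2 (by omega)) h11)
  rwa [sub_add_cancel, mul_comm, mul_inv_cancel_right₀ (LP.ne_zero_of_ne ht)] at h14

end Ctr

/-- **Castelnuovo** -/
theorem exists_cast {b : Basis (Fin 2) F Ω[F⁄ℂ]} (hR : RRP P b) (hE : bnum [C.E, C.E] = -1)
    (hK : bnum [C.E, kP P b] = -1) : ∃ P0 : PModel ℂ F, Ctr C (oP P0) := by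
  obtain ⟨G, h, hG⟩ := exists_ctr hR hE hK
  obtain ⟨S, hS, h1, -, h2⟩ := h.alg hG
  obtain ⟨T, hT⟩ := exists_fg hS h1
  choose! N hN using fun s (hs : s ∈ T) =>
    tw_II hG h.nonneg ((h2 s).1 ((hT s).1 (Algebra.subset_adjoin hs)))
  have h3 : ∀ s ∈ T, s ∈ ((T.sup N + 1) • G).Sec := fun s hs => by
    simpa using hN s hs _ ((Finset.le_sup hs).trans (Nat.le_succ _))
  generalize T.sup N = r at h3
  have h' := h.nsmul r
  let β := Module.finBasis ℂ ((r + 1) • G).Sec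
  let w : Fin (finrank ℂ ((r + 1) • G).Sec) → F := fun i => β i
  have : Nonempty (Fin (finrank ℂ ((r + 1) • G).Sec)) :=
    ⟨⟨0, eff_iff_finrank.1 (eff_of_nonneg h'.nonneg)⟩⟩
  have hw : ∀ i, w i ≠ 0 := fun i h0 => β.ne_zero i (Subtype.ext h0)
  have h4 : ∀ s ∈ ((r + 1) • G).Sec, s ∈ Submodule.span ℂ (Set.range w) := fun s hs => by
    have h4 := congrArg Subtype.val (β.sum_repr ⟨s, hs⟩)
    rw [AddSubmonoidClass.coe_finsetSum] at h4
    rw [← show _ = s from h4]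
    exact sum_mem fun i _ => Submodule.smul_mem _ _ (Submodule.subset_span ⟨i, rfl⟩)
  have h5 : ∀ l, ∀ s ∈ ((r + 1) • G).Sec, s / w l ∈ chI ℂ w l := fun l s hs => by
    rw [div_eq_mul_inv]
    refine Submodule.span_le
      (p := (chI ℂ w l).toSubmodule.comap (LinearMap.mulRight ℂ (w l)⁻¹)) |>.2 ?_ (h4 s hs)
    rintro _ ⟨j, rfl⟩
    simpa [div_eq_mul_inv] using Cns.div_mem_chI ℂ w l j
  have h6 : ∀ V : RZ ℂ F, ∃ i, V.v (w i) = ((r + 1) • G).val V := fun V => by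
    obtain ⟨s, hs, h6⟩ := (hG.nsmul (r + 1)).exists_gen V
    obtain ⟨i, hi⟩ := exists_val_mxf (k := ℂ) ⟨_, hw (Classical.arbitrary _)⟩ V
    refine ⟨i, le_antisymm ((β i).2 V) (h6 ▸ RZ.v_le_of_span ?_ (h4 s hs))⟩
    rintro _ ⟨j, rfl⟩
    exact hi ▸ mem_Sec_mxf w j V
  have h7 : Cns.Gn P w :=
    gn_of_mem ⟨_, hw (Classical.arbitrary _)⟩ (eq_mxf (fun i => (β i).2) h6 ▸ h'.on)
  have hfr := fun l => h'.frac (hw l) (h5 l)
  have hsm : ∀ l, Algebra.Smooth ℂ (chI ℂ w l) := fun l => Cns.smooth_of_lp _ fun L hL => by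
    obtain ⟨W0, hW1, hW2⟩ := Cns.exists_val_dom L
    let W : RZ ℂ F := ⟨W0, Cns.KV.of_le hW1⟩
    have hW : ∀ f ∈ L.O, W.v f = 1 ↔ L.v f ≠ 0 := fun f hf => Cns.un_iff_val.symm.trans (hW2 f hf)
    have ht : W.v (w l) = ((r + 1) • G).val W := by
      obtain ⟨i, hi⟩ := h6 W
      exact le_antisymm ((β l).2 W)
        (hi ▸ (RZ.le_iff (hw l)).2 (hW1 _ (hL.le (Cns.div_mem_chI ℂ w l i))))
    by_cases hE' : C.E.val W = 1
    · exact h'.fs_off hL hW ht (h5 l) (fun x hx => Cns.chI_le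
        (h7.div_mem hx (hw l) fun j => hL.le (Cns.div_mem_chI ℂ w l j))) hE'
    have : IsFractionRing (chI ℂ w l) F := IsFractionRing.of_field _ _ fun z => by
      obtain ⟨a, ha, c, hc, -, rfl⟩ := hfr l z
      exact ⟨⟨a, ha⟩, ⟨c, hc⟩, rfl⟩
    have := hL.fin.noeth
    have h8 : W.v (w l) = 1 := ht.trans (h'.val_eq hE')
    have h9 : w l ∈ L.O := by
      simpa using L.inv_mem ((hW _ (hL.le (h5 l 1 (nonneg_iff.1 h'.nonneg)))).1 (by simp [h8]))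
    have h10 : ∀ f ∈ II C G 0, f ∈ L.O := fun f hf => Algebra.adjoin_le (S := L.O)
      (fun s hs => div_mul_cancel₀ s (hw l) ▸ mul_mem (hL.le (h5 l s (h3 s hs))) h9)
      ((hT f).2 ((h2 f).2 hf))
    obtain ⟨z, hz⟩ := h.crd hG hL h10 (fun f hf => by_contra fun h11 => by
      have h12 := hf W (h.val_eq hE')
      rw [(hW f (LP.mem_of_ne h11)).2 h11, one_nsmul, val_neg, one_le_inv₀ (val_pos _ _)] at h12
      exact hE' (le_antisymm h12 (C.nonneg W))) fun f hf => by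
        obtain ⟨k, hk⟩ := Geo.exists_tw (a := 0) (x := f) (hG.nsmul (r + 1)) (β l).2 (hw l)
          fun V hV => RZ.le_one_iff.2 (Cns.chI_le (B := Cns.kSub V.2)
            (fun j => (RZ.le_iff (hw l)).1 (hV ▸ (β j).2 V)) hf)
        refine ⟨w l ^ k, by rw [LP.v_pow h9]; exact pow_ne_zero _ ((hW _ h9).1 h8),
          mem_II (N := k * (r + 1)) ?_⟩
        simpa [smul_smul] using hk k le_rfl
    exact fs_of_crd hL b hz
  refine ⟨Cns.ofFam w hw hfr hsm, ?_⟩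
  have h8 : (r + 1) • G = oP (Cns.ofFam w hw hfr hsm) := eq_mxf (fun i => (β _).2) fun V => by
    obtain ⟨i, hi⟩ := h6 V
    exact ⟨(Cns.eI _).symm i, by rwa [Cns.ofFam_y_symm]⟩
  exact h8 ▸ h'

end Crest.Agent.X262.Min33
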