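import Crest.Agent.X277.BD.Cyc
import Crest.Agent.X277.BD.Num2

/-!
# Row 262, MIN (helper33), part 1: b-divisors on curves over `ℂ`

* `exists_val`    : the places of a curve;
* `le_of_finrank` : `h⁰(c) ≤ deg c + 1`;
* `eq_zero_of_deg`, `exists_gen`, `Sec_le_span` : classes of degree zero and one.
-/

set_option autoImplicit false

noncomputable section

namespace Crest.Agent.X262.Min33

open Crest.Agent.X277 Crest.Agent.X277.BD Crest.Agent.X277.BD.Cyc WithZero Module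

section lin

variable {L : Type*} [Field L] [Algebra ℂ L] {Γ : Type*} [LinearOrderedCommGroupWithZero Γ]
  {v : Valuation L Γ}

/-- elements of value at most `γ` -/
def vle (v : Valuation L Γ) (hv : ∀ c : ℂ, v (algebraMap ℂ L c) ≤ 1) (γ : Γ) : Submodule ℂ L where
  carrier := {s | v s ≤ γ}
  add_mem' ha hb := (v.map_add _ _).trans (max_le ha hb)
  zero_mem' := by simp
  smul_mem' c x hx := by
    change v (c • x) ≤ γ
    rw [Algebra.smul_def, map_mul]
    exact (mul_le_of_le_one_left' (hv c)).trans hx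

theorem finrank_le_succ {S T : Submodule ℂ L} [FiniteDimensional ℂ T] {s : L}
    (h : S ≤ T ⊔ Submodule.span ℂ {s}) : finrank ℂ S ≤ finrank ℂ T + 1 := by
  have h1 := Submodule.finrank_add_le_finrank_add_finrank T (Submodule.span ℂ {s})
  have h2 : finrank ℂ (Submodule.span ℂ ({s} : Set L)) ≤ 1 := by
    simpa using finrank_span_le_card (R := ℂ) ({s} : Set L)
  exact (Submodule.finrank_mono h).trans (h1.trans (by omega))

variable {v : Valuation L ℤᵐ⁰} {hv : ∀ c : ℂ, v (algebraMap ℂ L c) ≤ 1}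

theorem le_exp_of_lt {x : ℤᵐ⁰} {o : ℤ} (h : x < exp o) : x ≤ exp (o - 1) := by
  rcases eq_or_ne x 0 with rfl | h0
  · exact zero_le
  · rw [← exp_log h0] at h ⊢
    rw [exp_lt_exp] at h
    rw [exp_le_exp]
    omega

theorem finrank_step (hr : ∀ f, v f ≤ 1 → ∃ c : ℂ, v (f - algebraMap ℂ L c) < 1)
    (S : Submodule ℂ L) [FiniteDimensional ℂ S] {o : ℤ} (hS : ∀ s ∈ S, v s ≤ exp o) :
    finrank ℂ S ≤ finrank ℂ (S ⊓ vle v hv (exp (o - 1)) : Submodule ℂ L) + 1 := by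
  by_cases h : ∃ s ∈ S, v s = exp o
  · obtain ⟨s, hs, h1⟩ := h
    have h0 : s ≠ 0 := fun h0 => by
      rw [h0, map_zero] at h1
      exact exp_ne_zero h1.symm
    refine finrank_le_succ (s := s) fun f hf => ?_
    obtain ⟨c, hc⟩ := hr (f / s) (by
      rw [map_div₀, h1]
      exact div_le_one_of_le₀ (hS f hf) zero_le)
    have h2 : f - c • s = (f / s - algebraMap ℂ L c) * s := by
      rw [Algebra.smul_def]
      field_simp
    refine Submodule.mem_sup.2 ⟨f - c • s, ⟨sub_mem hf (S.smul_mem c hs), le_exp_of_lt ?_⟩, c • s,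
      Submodule.smul_mem _ c (Submodule.mem_span_singleton_self s), sub_add_cancel _ _⟩
    rw [h2, map_mul, h1]
    exact mul_lt_of_lt_one_left exp_pos hc
  · refine finrank_le_succ (s := 0) fun f hf => Submodule.mem_sup_left ⟨hf, le_exp_of_lt ?_⟩
    exact lt_of_le_of_ne (hS f hf) fun h1 => h ⟨f, hf, h1⟩

/-- a space of dimension `> r` contains an element which vanishes to order `r` -/
theorem exists_van (hv : ∀ c : ℂ, v (algebraMap ℂ L c) ≤ 1)
    (hr : ∀ f, v f ≤ 1 → ∃ c : ℂ, v (f - algebraMap ℂ L c) < 1) (r : ℕ) :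
    ∀ (S : Submodule ℂ L) [FiniteDimensional ℂ S] (o : ℤ), (∀ s ∈ S, v s ≤ exp o) →
      r < finrank ℂ S → ∃ s ∈ S, s ≠ 0 ∧ v s ≤ exp (o - r) := by
  induction r with
  | zero =>
    intro S _ o hS h
    obtain ⟨s, hs, h0⟩ := Submodule.exists_mem_ne_zero_of_ne_bot (p := S) (by
      rintro rfl
      simp at h)
    exact ⟨s, hs, h0, by simpa using hS s hs⟩
  | succ r ih =>
    intro S _ o hS h
    have h1 := finrank_step (hv := hv) hr S hS
    obtain ⟨s, hs, h0, h2⟩ := ih (S ⊓ vle v hv (exp (o - 1))) (o - 1) (fun s hs => hs.2) (by omega)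
    refine ⟨s, hs.1, h0, h2.trans_eq ?_⟩
    congr 1
    push_cast
    ring

end lin

section crv

variable {κ : Type} [Field κ] [Algebra ℂ κ] [Algebra.EssFiniteType ℂ κ] {c : BD ℂ κ}

theorem surj_of_dim_zero (hd : dim ℂ κ = 0) : Function.Surjective (algebraMap ℂ κ) := by
  have h1 : Algebra.trdeg ℂ κ = 0 := by rw [trdeg_eq_dim, hd, Nat.cast_zero]
  have := trdeg_eq_zero_iff.1 h1
  exact IsAlgClosed.algebraMap_bijective_of_isIntegral.2

/-- the places of a curve -/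
theorem exists_val (hd : dim ℂ κ = 1) {W : RZ ℂ κ} (hW : W.1 ≠ ⊤) :
    ∃ (v : Valuation κ ℤᵐ⁰) (hv : ∀ c : ℂ, v (algebraMap ℂ κ c) ≤ 1), rz v hv = W ∧
      (∀ f, v f ≤ 1 → ∃ c : ℂ, v (f - algebraMap ℂ κ c) < 1) ∧
      ∀ a : BD ℂ κ, 0 ≤ a → ord v hv a ≤ bnum [a] := by
  obtain ⟨M⟩ := (inferInstance : Nonempty (Mdl ℂ κ))
  obtain ⟨D, rfl⟩ := exists_pdiv_ctr (M := M) (d := 0) hd hW (AN.G2.PZ.not_dimLT_zero _)
  have h0 : dim ℂ (Rf (rzD D)) = 0 := dim_Rf hd D
  refine ⟨D.v, D.2.ov, rfl, fun f hf => ?_, fun a ha => ?_⟩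
  · obtain ⟨c, hc⟩ := surj_of_dim_zero h0 ((plV (rzD D)).r f)
    refine ⟨c, ?_⟩
    have h1 : f ∈ (plV (rzD D)).V.1 := hf
    have h2 : algebraMap ℂ κ c ∈ (plV (rzD D)).V.1 := (rzD D).2 c
    have h3 := (Pl.r_eq_zero (sub_mem h1 h2)).1 (by rw [Pl.r_sub h1 h2, lnr_plV _ c, hc, sub_self])
    have h4 := (v_rz_lt_iff D.v D.2.ov (x := f - algebraMap ℂ κ c) (y := 1)).1 (by
      rw [map_one]
      exact h3)
    rwa [map_one] at h4
  · have h1 := ord_mul_le (p := plV (rzD D)) (lnr_plV _) (surj_plV _) (by rw [h0]; exact hd)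
      (v := D.v) (hv := D.2.ov) rfl D.2.unif ha (l := []) (by simp)
    have h2 : 0 < bnum ([] : List (BD ℂ (Rf (rzD D)))) := bnum_pos (by simp [h0]) (by simp)
    have h3 := ord_nonneg (v := D.v) (hv := D.2.ov) ha
    rw [List.map_nil] at h1
    nlinarith

theorem exists_ne_top (hd : dim ℂ κ = 1) : ∃ W : RZ ℂ κ, W.1 ≠ ⊤ := by
  obtain ⟨M⟩ := (inferInstance : Nonempty (Mdl ℂ κ))
  by_contra h
  push Not at h
  have h1 : M.H = 0 := ext' fun W => by
    obtain rfl : W = RZ.top ℂ κ := Subtype.ext (h W)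
    rw [val_top, val_zero]
  have h2 := M.H_pos
  rw [hd, h1, List.replicate_one, bnum_zero] at h2
  exact h2.ne rfl

theorem bnum_sub_pr (c : BD ℂ κ) (s : κ) : bnum [c - pr ℂ s] = bnum [c] := by
  rw [bnum_sub, bnum_pr, sub_zero]

theorem le_of_van {v : Valuation κ ℤᵐ⁰} {hv : ∀ c : ℂ, v (algebraMap ℂ κ c) ≤ 1}
    (h : ∀ a : BD ℂ κ, 0 ≤ a → ord v hv a ≤ bnum [a]) {s : κ} (hs : s ∈ c.Sec) (h0 : s ≠ 0)
    {r : ℤ} (h1 : v s ≤ exp (ord v hv c - r)) : r ≤ bnum [c] := by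
  have h2 := h _ (sub_nonneg.2 ((pr_le_iff h0).2 hs))
  rw [bnum_sub_pr, map_sub, ord_pr h0] at h2
  rw [← exp_log ((map_ne_zero v).2 h0), exp_le_exp] at h1
  omega

/-- `h⁰(c) ≤ deg c + 1` -/
theorem le_of_finrank (hd : dim ℂ κ = 1) {r : ℕ} (h : r < finrank ℂ c.Sec) :
    (r : ℤ) ≤ bnum [c] := by
  obtain ⟨W, hW⟩ := exists_ne_top hd
  obtain ⟨v, hv, -, h1, h2⟩ := exists_val hd hW
  obtain ⟨s, hs, h0, h3⟩ := exists_van hv h1 r c.Sec (ord v hv c) (fun s hs => le_exp_ord hs) h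
  exact le_of_van h2 hs h0 h3

theorem finrank_le (hd : dim ℂ κ = 1) (h : -1 ≤ bnum [c]) :
    (finrank ℂ c.Sec : ℤ) ≤ bnum [c] + 1 := by
  rcases hn : finrank ℂ c.Sec with _ | r
  · omega
  · have := le_of_finrank (c := c) hd (r := r) (by omega)
    omega

theorem finrank_le' (hd : dim ℂ κ = 1) (c : BD ℂ κ) :
    (finrank ℂ c.Sec : ℤ) ≤ max (bnum [c] + 1) 0 := by
  rcases hn : finrank ℂ c.Sec with _ | r
  · omega
  · have := le_of_finrank (c := c) hd (r := r) (by omega)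
    omega

/-- an effective class of degree zero is zero -/
theorem eq_zero_of_deg (hd : dim ℂ κ = 1) (h0 : 0 ≤ c) (h : bnum [c] = 0) : c = 0 :=
  ext' fun W => by
    by_cases hW : W.1 = ⊤
    · obtain rfl : W = RZ.top ℂ κ := Subtype.ext hW
      rw [val_top, val_zero]
    · obtain ⟨v, hv, rfl, -, h2⟩ := exists_val hd hW
      exact ord_eq_zero.1 (le_antisymm (h ▸ h2 c h0) (ord_nonneg h0))

/-- the sections of the trivial class are the constants -/
theorem exists_const (hd : dim ℂ κ = 1) {f : κ} (hf : f ∈ (0 : BD ℂ κ).Sec) :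
    ∃ c : ℂ, f = algebraMap ℂ κ c := by
  have h1 := finrank_le (c := (0 : BD ℂ κ)) hd (by rw [bnum_zero]; omega)
  rw [bnum_zero] at h1
  have h2 : Submodule.span ℂ {(1 : κ)} = (0 : BD ℂ κ).Sec :=
    Submodule.eq_of_le_of_finrank_le ((Submodule.span_singleton_le_iff_mem _ _).2 one_mem_Sec) (by
      rw [finrank_span_singleton one_ne_zero]
      omega)
  obtain ⟨c, hc⟩ := Submodule.mem_span_singleton.1 (h2 ▸ hf)
  exact ⟨c, by rw [← hc, Algebra.algebraMap_eq_smul_one]⟩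

/-- a pencil of degree one has no base points -/
theorem exists_gen (hd : dim ℂ κ = 1) (h : bnum [c] = 1) {S : Submodule ℂ κ} (hS : S ≤ c.Sec)
    (h2 : 2 ≤ finrank ℂ S) (W : RZ ℂ κ) : ∃ s ∈ S, W.v s = c.val W := by
  have : FiniteDimensional ℂ S := Submodule.finiteDimensional_of_le hS
  by_cases hW : W.1 = ⊤
  · obtain rfl : W = RZ.top ℂ κ := Subtype.ext hW
    obtain ⟨s, hs, h0⟩ := Submodule.exists_mem_ne_zero_of_ne_bot (p := S) (by
      rintro rfl
      simp at h2)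
    exact ⟨s, hs, by rw [val_top, RZ.v_top h0]⟩
  obtain ⟨v, hv, rfl, h3, h4⟩ := exists_val hd hW
  by_contra h5
  push Not at h5
  obtain ⟨s, hs, h0, h6⟩ := exists_van hv h3 1 S (ord v hv c - 1) (fun s hs => le_exp_of_lt (by
    rw [exp_ord]
    exact lt_of_le_of_ne (le_vl (hS hs)) fun h7 => h5 s hs (eq_vl_iff.1 h7))) (by omega)
  have h7 := le_of_van h4 (hS hs) h0 (r := 2) (h6.trans_eq (by
    congr 1
    push_cast
    ring))
  omega

/-- the sections of the multiples of a pencil of degree one -/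
theorem Sec_le_span (hd : dim ℂ κ = 1) (h : bnum [c] = 1) (h1 : (1 : κ) ∈ c.Sec) {t : κ}
    (ht : t ∈ c.Sec) (ht' : ∀ a : ℂ, t ≠ algebraMap ℂ κ a) (n : ℕ) :
    (n • c).Sec ≤ Submodule.span ℂ (Set.range fun i : Fin (n + 1) => t ^ (i : ℕ)) := by
  have h2 : Transcendental ℂ t := fun h2 => by
    obtain ⟨a, ha⟩ := minpoly.mem_range_of_degree_eq_one ℂ t
      (IsAlgClosed.degree_eq_one_of_irreducible ℂ (minpoly.irreducible h2.isIntegral))
    exact ht' a ha.symm
  have h3 : LinearIndependent ℂ fun i : Fin (n + 1) => t ^ (i : ℕ) := by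
    have h4 : LinearIndependent ℂ fun i : ℕ => t ^ i := by
      have h5 := (Polynomial.basisMonomials ℂ).linearIndependent.map'
        (Polynomial.aeval t).toLinearMap
        (LinearMap.ker_eq_bot.2 (transcendental_iff_injective.1 h2))
      rwa [show (Polynomial.aeval t).toLinearMap ∘ Polynomial.basisMonomials ℂ =
        fun i : ℕ => t ^ i from funext fun i => by simp] at h5
    exact h4.comp _ Fin.val_injective
  refine (Submodule.eq_of_le_of_finrank_le (Submodule.span_le.2 ?_) ?_).ge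
  · rintro _ ⟨i, rfl⟩
    have h4 := mul_mem_Sec (pow_mem_Sec ht i) (pow_mem_Sec h1 (n - i))
    rwa [one_pow, mul_one, ← add_nsmul, Nat.add_sub_cancel' (Nat.lt_succ_iff.1 i.2)] at h4
  · rw [finrank_span_eq_card h3, Fintype.card_fin]
    have h4 := finrank_le (c := n • c) hd (by rw [bnum_nsmul, h]; omega)
    rw [bnum_nsmul, h] at h4
    omega

end crv

end Crest.Agent.X262.Min33
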