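import Crest.Agent.X262.Min33.Lift
import Crest.Agent.X262.Geo.Val

/-!
# Row 262, MIN (helper33), part 3: the contracting class of a `(-1)`-curve

* `Cv.at_off`, `Cv.exists_dom`, `Cv.at_of_res`, `Cv.gen_on` : points of the curve;
* `Ctr C G` : `G` is trivial on the curve and ample off it; `Ctr.free_add`, `exists_ctr`;
* `II C G n` : functions on the chart `G = 0` which vanish to order `n`; `Ctr.step`.
-/

set_option autoImplicit false
set_option linter.unusedSectionVars false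

noncomputable section

namespace Crest.Agent.X262.Min33

open Crest.Agent.X277 Crest.Agent.X277.BD Crest.Agent.X277.BD.Cyc Crest.Agent.X277.Lef
open Crest.Agent.X277.AN.G1 Crest.Agent.X277.BD.Br Module
open Crest.Agent.X277.Cns (Ov)
open scoped KaehlerDifferential

variable {F : Type} [Field F] [Algebra ℂ F] [Algebra.EssFiniteType ℂ F]
variable {P : PModel ℂ F} {κ : Type} [Field κ] [Algebra ℂ κ] [Algebra.EssFiniteType ℂ κ]

namespace Cv

variable (C : Cv P κ) {a : BD ℂ F} {s g : F} {x : Pts P}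

theorem at_one (ha : a ∈ On P) (hs : s ∈ a.Sec) (hx : At a x s) (h : C.p.V.v s < a.val C.p.V) :
    At C.E x 1 := fun V hV => by
  have h1 := C.ker a ha s hs h V
  rw [val_sub, hx V hV, le_div_iff₀ (val_pos _ _), mul_le_iff_le_one_right (val_pos _ _)] at h1
  rw [map_one]
  exact le_antisymm (C.nonneg V) h1

/-- off the curve the divisor is trivial -/
theorem at_off (hx : ¬ Ov x C.p.V.1) : At C.E x 1 := by
  obtain ⟨i, hi⟩ := exists_pat x
  rcases (y_mem_Sec i C.p.V).lt_or_eq with h | h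
  · exact C.at_one oP_mem (y_mem_Sec i) (at_y hi) h
  have hA : ∀ y ∈ P.A i, y ∈ C.p.V.1 := C.p.V.2.adjoin_le (by
    rintro _ ⟨j, rfl⟩
    exact (RZ.le_iff (P.y_ne i)).1 (h ▸ y_mem_Sec j C.p.V))
  obtain ⟨f, hf, h1⟩ := not_forall₂.1 hx
  obtain ⟨u, hu, c, hc, h2, h3⟩ := (mem_lp_iff hi).1 hf
  have h4 : C.p.V.v c < 1 := lt_of_le_of_ne (RZ.le_one_iff.2 (hA c hc)) fun h4 => h1 (by
    rw [← RZ.le_one_iff, ← mul_one (C.p.V.v f), ← h4, ← map_mul, h3, h4]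
    exact RZ.le_one_iff.2 (hA u hu))
  obtain ⟨N, hN⟩ := exists_tw_mem (a := 0) (f := c) (i := i) fun V hV => RZ.le_one_iff.2 (hV c hc)
  have h5 := hN N le_rfl
  rw [zero_add] at h5
  refine C.at_one (nsmul_mem oP_mem N) h5 (((at_y hi).nsmul N).mul_unit h2) ?_
  rw [map_mul, map_pow, h, val_nsmul]
  exact mul_lt_of_lt_one_left (pow_pos (val_pos _ _) N) h4

theorem exists_dom (hx : Ov x C.p.V.1) : ∃ W : RZ ℂ κ, Ov x (C.p.cm W).1 ∧
    ∀ f ∈ (lp x).O, (C.p.cm W).v f = 1 ↔ ev f x ≠ 0 := by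
  let ρ : (lp x).O →+* κ := C.p.φ.comp
    (((lp x).O.val : (lp x).O →+* F).codRestrict C.p.V.1.toSubring fun f => hx f f.2)
  have hρ : ∀ f : (lp x).O, ρ f = C.p.r f := fun f => (C.p.r_eq (hx f f.2)).symm
  have : (lp x).mx.IsPrime := RingHom.ker_isPrime _
  obtain ⟨W, h1, h2⟩ := Cns.exists_val ρ (lp x).mx fun f hf => by_contra fun h =>
    Pl.r_ne_zero_iff.2 (ev_ne_iff'.1 h _ hx) ((hρ f).symm.trans hf)
  have hW : Cns.KV ℂ W := fun c => by
    have h3 := h1 (algebraMap ℂ _ c)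
    rwa [hρ, Subalgebra.coe_algebraMap, C.lnr c] at h3
  have h3 : Ov x (C.p.cm ⟨W, hW⟩).1 := fun f hf => ⟨hx f hf, hρ ⟨f, hf⟩ ▸ h1 ⟨f, hf⟩⟩
  refine ⟨⟨W, hW⟩, h3, fun f hf => ⟨fun h => ?_, fun h => ev_ne_iff'.1 h _ h3⟩⟩
  have h4 : (C.p.cm ⟨W, hW⟩).v f = (C.p.cm ⟨W, hW⟩).v 1 := h.trans (map_one _).symm
  have h5 := (Pl.v_eq_iff ((RZ.eq_of_le (Pl.cm_le _) h4).trans (map_one _)) (map_one _)).1 h4
  rw [Pl.r_one, map_one] at h5
  exact (h2 ⟨f, hf⟩).1 (Cns.un_iff_val.2 (hρ ⟨f, hf⟩ ▸ h5))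

theorem at_of_res (ha : a ∈ On P) (h1 : a.val C.p.V = 1) (hx : Ov x C.p.V.1)
    (h : ∀ W : RZ ℂ κ, ∃ s ∈ a.Sec, W.v (C.p.r s) = (C.p.res a).val W) :
    ∃ s ∈ a.Sec, At a x s := by
  obtain ⟨W, h2, h3⟩ := C.exists_dom hx
  obtain ⟨s, hs, h4⟩ := h W
  obtain ⟨g, hg⟩ := ha x
  have h5 := hg _ h2
  refine ⟨s, hs, hg.of_dom h2 h3 hs (Eq.trans ?_ h5)⟩
  exact (Pl.v_eq_iff (Pl.r_ne_zero_iff.1 (ne_of_val h4)) (Pl.unit_of_gen h1 h5)).2
    (h4.trans (Pl.val_res h1 h5))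

theorem le_rho (ha : a ∈ On P) (hg : C.p.V.v g = a.val C.p.V) {j : ℤ}
    (h : j + finrank ℂ (a - C.E).Sec ≤ finrank ℂ a.Sec) :
    j ≤ finrank ℂ (LinearMap.range (C.rho hg)) := by
  have := C.finrank_rho ha hg
  omega

/-- generation along the curve in degree zero and one -/
theorem gen_on (ha : a ∈ On P) (hj : bnum [a, C.E] = 0 ∨ bnum [a, C.E] = 1)
    (h : bnum [a, C.E] + 1 + finrank ℂ (a - C.E).Sec ≤ finrank ℂ a.Sec) (hx : Ov x C.p.V.1) :
    ∃ s ∈ a.Sec, At a x s := by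
  have hg := a.v_gen C.p.V
  have h0 := a.gen_ne C.p.V
  have h1 := C.le_rho ha hg h
  have h2 := C.deg_res ha hg
  have h3 : ∀ W : RZ ℂ κ, ∃ t ∈ LinearMap.range (C.rho hg),
      W.v t = (C.p.res (a - pr ℂ (a.gen C.p.V))).val W := fun W => by
    rcases hj with hj | hj
    · obtain ⟨t, ht, h4⟩ := Submodule.exists_mem_ne_zero_of_ne_bot
        (p := LinearMap.range (C.rho hg)) fun h4 => by simp [h4, hj] at h1
      have h5 := eq_zero_of_deg C.dim1 (sub_nonneg.2 ((pr_le_iff h4).2 (C.range_le hg ht)))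
        (by rw [bnum_sub_pr, h2, hj])
      exact ⟨t, ht, by rw [sub_eq_zero.1 h5, val_pr h4]⟩
    · exact exists_gen C.dim1 (h2.trans hj) (C.range_le hg) (by omega) W
  obtain ⟨s, hs, h4⟩ := C.at_of_res (sub_mem ha (pr_mem _)) (Pl.val_sub_gen hg) hx fun W => by
    obtain ⟨_, ⟨s, rfl⟩, h4⟩ := h3 W
    exact ⟨s / a.gen C.p.V, (mem_Sec_sub_pr h0).2 (by rw [div_mul_cancel₀ _ h0]; exact s.2), h4⟩
  refine ⟨s * a.gen C.p.V, (mem_Sec_sub_pr h0).1 hs, ?_⟩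
  simpa using h4.add (at_pr x h0)

end Cv

/-- a class which is trivial on the curve and ample off the curve -/
structure Ctr (C : Cv P κ) (G : BD ℂ F) : Prop where
  neg : bnum [C.E, C.E] = -1
  on : G ∈ On P
  nonneg : 0 ≤ G
  val : G.val C.p.V = 1
  deg : bnum [G, C.E] = 0
  lin : ∃ (m n : ℕ) (w : F), w ≠ 0 ∧ G = (m + 1) • oP P + n • C.E + pr ℂ w
  lift : ∀ a ∈ On P, -1 ≤ bnum [a, C.E] → ∃ m0 : ℕ, ∀ m : ℕ, m0 ≤ m →
    bnum [a, C.E] + 1 + finrank ℂ (a + m • G - C.E).Sec ≤ finrank ℂ (a + m • G).Sec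

/-- functions on the chart `G = 0` which vanish to order `n` along the curve -/
def II (C : Cv P κ) (G : BD ℂ F) (n : ℕ) : Submodule ℂ F where
  carrier := {f | ∀ V : RZ ℂ F, G.val V = 1 → V.v f ≤ (-(n • C.E)).val V}
  add_mem' ha hb V hV := (V.v.map_add _ _).trans (max_le (ha V hV) (hb V hV))
  zero_mem' V _ := by simp
  smul_mem' c x hx V hV := (V.v_smul_le c x).trans (hx V hV)

variable {C : Cv P κ} {G a : BD ℂ F} {x : Pts P} {f g : F} {V : RZ ℂ F} {n : ℕ}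

theorem mul_mem_II {n' : ℕ} (hf : f ∈ II C G n) (hg : g ∈ II C G n') : f * g ∈ II C G (n + n') :=
  fun V hV => by
    rw [map_mul, add_nsmul, neg_add, val_add]
    exact mul_le_mul' (hf V hV) (hg V hV)

theorem II_anti {n' : ℕ} (h : n ≤ n') : II C G n' ≤ II C G n := fun _ hf V hV =>
  (hf V hV).trans (neg_le_neg (nsmul_le_nsmul_left C.nonneg h) V)

theorem mem_II_zero : f ∈ II C G 0 ↔ ∀ V : RZ ℂ F, G.val V = 1 → f ∈ V.1 :=
  forall₂_congr fun V _ => by rw [zero_nsmul, neg_zero, val_zero, RZ.le_one_iff]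

theorem mem_II {N : ℕ} (hf : f ∈ (N • G - n • C.E).Sec) : f ∈ II C G n := fun V hV => by
  simpa [hV] using hf V

theorem tw_II (hG : Free G) (h0 : 0 ≤ G) (hf : f ∈ II C G n) :
    ∃ N0 : ℕ, ∀ N, N0 ≤ N → f ∈ (N • G - n • C.E).Sec := by
  obtain ⟨N0, h⟩ := Geo.exists_tw (a := -(n • C.E)) (x := f) hG (nonneg_iff.1 h0) one_ne_zero
    fun V hV => hf V (hV.symm.trans (map_one _))
  exact ⟨N0, fun N hN => by simpa [neg_add_eq_sub] using h N hN⟩

namespace Ctr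

variable (h : Ctr C G)
include h

theorem res_eq : C.p.res G = 0 :=
  eq_zero_of_deg C.dim1 (Pl.res_nonneg h.val h.nonneg)
    (by rw [← (Pl.lin_rs_res h.val).bnum_eq, ← C.deg G h.on, h.deg])

theorem at_on (hx : Ov x C.p.V.1) : At G x 1 := by
  obtain ⟨W, h2, h3⟩ := C.exists_dom hx
  obtain ⟨g, hg⟩ := h.on x
  refine hg.of_dom h2 h3 (nonneg_iff.1 h.nonneg) (le_antisymm (nonneg_iff.1 h.nonneg _) ?_)
  rw [map_one]
  exact (Pl.val_res_le_iff h.val rfl (b := 0)).1 (by rw [h.res_eq, Pl.res_zero])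

theorem val_eq (hV : C.E.val V ≠ 1) : G.val V = 1 := by
  obtain ⟨x, hx⟩ := exists_ov' P V
  have h1 : Ov x C.p.V.1 := by_contra fun h1 => hV ((C.at_off h1 V hx).symm.trans (map_one _))
  exact (h.at_on h1 V hx).symm.trans (map_one _)

theorem nsmul (q : ℕ) : Ctr C ((q + 1) • G) where
  neg := h.neg
  on := nsmul_mem h.on _
  nonneg := nsmul_nonneg h.nonneg _
  val := by rw [val_nsmul, h.val, one_pow]
  deg := by rw [bnum_nsmul, h.deg, mul_zero]
  lin := by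
    obtain ⟨m, n, w, h1, rfl⟩ := h.lin
    exact ⟨q * m + q + m, (q + 1) * n, w ^ (q + 1), pow_ne_zero _ h1, by
      rw [pr_pow h1]; module⟩
  lift a ha hj := by
    obtain ⟨m0, h1⟩ := h.lift a ha hj
    exact ⟨m0, fun m hm => smul_smul m (q + 1) G ▸ h1 _ (by nlinarith)⟩

theorem deg_add (a : BD ℂ F) (m : ℕ) : bnum [a + m • G, C.E] = bnum [a, C.E] := by
  rw [bnum_add, bnum_nsmul, h.deg, mul_zero, add_zero]

theorem free_add (ha : a ∈ On P) (hj : bnum [a, C.E] = 0 ∨ bnum [a, C.E] = 1) :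
    ∃ m0 : ℕ, ∀ m, m0 ≤ m → Free (a + m • G) := by
  obtain ⟨m1, h1⟩ := h.lift a ha (by omega)
  obtain ⟨m2, h2⟩ := serre ha
  refine ⟨m1 + m2, fun m hm => free_of_at (P := P) fun x => ?_⟩
  by_cases hx : Ov x C.p.V.1
  · exact C.gen_on (add_mem ha (nsmul_mem h.on m)) (by rwa [h.deg_add])
      (by rw [h.deg_add]; exact h1 m (by omega)) hx
  obtain ⟨q, n, w, h3, rfl⟩ := h.lin
  obtain ⟨g, hg⟩ := add_mem ha (nsmul_mem oP_mem (m * (q + 1))) x
  obtain ⟨s, hs, h4⟩ := hg.exists_sec (h2 _ (by nlinarith))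
  have he : a + m • ((q + 1) • oP P + n • C.E + pr ℂ w) =
      a + (m * (q + 1)) • oP P + (m * n) • C.E + m • pr ℂ w := by module
  exact ⟨_, he ▸ mul_mem_Sec (mul_mem_Sec hs (pow_mem_Sec (nonneg_iff.1 C.nonneg) _))
    (pow_mem_Sec (mem_Sec_pr w) m),
    he ▸ (h4.add ((C.at_off hx).nsmul _)).add ((at_pr x h3).nsmul m)⟩

/-- the two coordinates -/
theorem exists_xy (hG : Free G) : ∃ (c : ℕ) (X Y : F), Free (c • G - C.E) ∧ X ∈ II C G 1 ∧
    Y ∈ II C G 1 ∧ ∀ n, ∀ f ∈ II C G n, ∃ q ∈ Submodule.span ℂ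
      (Set.range fun i : Fin (n + 1) => X ^ (n - i) * Y ^ (i : ℕ)), f - q ∈ II C G (n + 1) := by
  have hd : bnum [-C.E, C.E] = 1 := by rw [bnum_neg, h.neg, neg_neg]
  obtain ⟨m0, h0⟩ := h.free_add (neg_mem C.on) (Or.inr hd)
  obtain ⟨m1, h1⟩ := h.lift _ (neg_mem C.on) (by omega)
  have h2 := h0 (m0 + m1) (by omega)
  have h3 := h1 (m0 + m1) (by omega)
  have h4 := (h.deg_add (-C.E) (m0 + m1)).trans hd
  rw [neg_add_eq_sub] at h2 h3 h4
  generalize m0 + m1 = c at h2 h3 h4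
  have hD : c • G - C.E ∈ On P := sub_mem (nsmul_mem h.on c) C.on
  obtain ⟨X, hX, h5⟩ := h2.exists_gen C.p.V
  have hX0 := ne_of_val h5
  obtain ⟨Y, h6⟩ : ∃ Y : (c • G - C.E).Sec, ∀ u : ℂ, C.p.r (Y / X) ≠ algebraMap ℂ κ u := by
    by_contra! h6
    have h7 : LinearMap.range (C.rho h5) ≤ Submodule.span ℂ {1} := by
      rintro _ ⟨Y, rfl⟩
      obtain ⟨u, hu⟩ := h6 Y
      exact Submodule.mem_span_singleton.2 ⟨u, (Algebra.algebraMap_eq_smul_one u).symm.trans hu.symm⟩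
    have h8 := (Submodule.finrank_mono h7).trans_eq (finrank_span_singleton one_ne_zero)
    have h9 := C.le_rho hD h5 h3
    omega
  refine ⟨c, X, Y, h2, mem_II (N := c) (by rwa [one_nsmul]),
    mem_II (N := c) (by rw [one_nsmul]; exact Y.2), fun n f hf => ?_⟩
  obtain ⟨N, hN⟩ := tw_II hG h.nonneg hf
  have h7 := hN (N + n * c) (by omega)
  have he : (N + n * c) • G - n • C.E = n • (c • G - C.E) + N • G := by module
  have ha : (N + n * c) • G - n • C.E ∈ On P := sub_mem (nsmul_mem h.on _) (nsmul_mem C.on _)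
  have hg : C.p.V.v (X ^ n) = ((N + n * c) • G - n • C.E).val C.p.V := by
    rw [he, val_add, val_nsmul, val_nsmul, h.val, one_pow, mul_one, map_pow, h5]
  have h8 : C.p.res ((N + n * c) • G - n • C.E - pr ℂ (X ^ n)) =
      n • C.p.res (c • G - C.E - pr ℂ X) := by
    have h9 := Pl.val_sub_gen h5
    rw [show (N + n * c) • G - n • C.E - pr ℂ (X ^ n) = n • (c • G - C.E - pr ℂ X) + N • G by
      rw [pr_pow hX0]; module, Pl.res_add (by rw [val_nsmul, h9, one_pow])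
      (by rw [val_nsmul, h.val, one_pow]), Pl.res_nsmul h9, Pl.res_nsmul h.val, h.res_eq,
      nsmul_zero, add_zero]
  have h9 := Sec_le_span C.dim1 ((C.deg_res hD h5).trans h4)
    (by simpa [hX0] using C.r_mem h5 hX) (C.r_mem h5 Y.2) h6 n (h8 ▸ C.r_mem hg h7)
  obtain ⟨q, h10, h11⟩ := Submodule.span_le (p := ((Submodule.span ℂ (Set.range
    fun i : Fin (n + 1) => X ^ (n - i) * (Y : F) ^ (i : ℕ))).comap
      ((N + n * c) • G - n • C.E).Sec.subtype).map (C.rho hg)) |>.2 (by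
    rintro _ ⟨i, rfl⟩
    have hi : n - i + i = n := Nat.sub_add_cancel (Nat.lt_succ_iff.1 i.2)
    have h10 := mul_mem_Sec (pow_mem_Sec hX (n - i)) (pow_mem_Sec Y.2 i)
    rw [← add_nsmul, hi] at h10
    refine ⟨⟨_, Sec_mono (he ▸ le_add_of_nonneg_right (nsmul_nonneg h.nonneg N)) h10⟩,
      Submodule.subset_span ⟨i, rfl⟩, ?_⟩
    change C.p.r (X ^ (n - i) * Y ^ (i : ℕ) / X ^ n) = C.p.r (Y / X) ^ (i : ℕ)
    rw [← Pl.r_pow (C.div_mem h5 Y.2), div_pow]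
    congr 1
    rw [div_eq_div_iff (pow_ne_zero _ hX0) (pow_ne_zero _ hX0), mul_right_comm, ← pow_add, hi,
      mul_comm]) h9
  refine ⟨q, h10, mem_II (N := N + n * c) ?_⟩
  rw [succ_nsmul, ← sub_sub, ← C.r_eq_zero ha hg (sub_mem h7 q.2)]
  exact (map_sub (C.rho hg) ⟨f, h7⟩ q).trans (sub_eq_zero.2 h11.symm)

/-- the classes which descend -/
theorem mem_On_iff {P0 : PModel ℂ F} (h0 : G = oP P0) :
    a ∈ On P0 ↔ a ∈ On P ∧ bnum [a, C.E] = 0 := by
  constructor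
  · intro ha
    refine ⟨On_le_iff.2 (h0 ▸ h.on) ha, ?_⟩
    obtain ⟨m, h1⟩ := serre ha
    obtain ⟨m', h2⟩ := serre (neg_mem ha)
    have h3 := C.bnum_nef (h1 m le_rfl).nef
    have h4 := C.bnum_nef (h2 m' le_rfl).nef
    rw [← h0, h.deg_add] at h3 h4
    rw [bnum_neg] at h4
    omega
  · rintro ⟨ha, h1⟩
    obtain ⟨m, h2⟩ := h.free_add ha (Or.inl h1)
    obtain ⟨m', h3⟩ := h.free_add (neg_mem ha) (Or.inl (by rw [bnum_neg, h1, neg_zero]))
    exact on_of_free (nsmul_mem (h0 ▸ oP_mem) (m + m')) (h2 _ (by omega)) (h3 _ (by omega))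

end Ctr

theorem exists_ctr {b : Basis (Fin 2) F Ω[F⁄ℂ]} (hR : RRP P b) (hE : bnum [C.E, C.E] = -1)
    (hK : bnum [C.E, kP P b] = -1) : ∃ G, Ctr C G ∧ Free G := by
  obtain ⟨k, hk⟩ := Int.eq_ofNat_of_zero_le (C.bnum_nef (free_oP (P := P)).nef)
  obtain ⟨m, h1⟩ := C.lift hR hE hK hk (zero_mem _) (by simp [bnum_zero])
  have h2 := h1 (m + 1) (by omega)
  rw [zero_add, bnum_zero] at h2
  have hD : (m + 1) • (oP P + k • C.E) ∈ On P := nsmul_mem (add_mem oP_mem (nsmul_mem C.on k)) _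
  obtain ⟨s, hs, h3⟩ : ∃ s ∈ ((m + 1) • (oP P + k • C.E)).Sec,
      s ∉ ((m + 1) • (oP P + k • C.E) - C.E).Sec := by
    by_contra! h3
    have := Submodule.finrank_mono (show ((m + 1) • (oP P + k • C.E)).Sec ≤ _ from h3)
    omega
  have h4 := (hs C.p.V).eq_of_not_lt ((C.ker_iff hD hs).not.1 h3)
  have h0 := ne_of_val h4
  have h5 : Ctr C ((m + 1) • (oP P + k • C.E) - pr ℂ s) :=
    { neg := hE
      on := sub_mem hD (pr_mem s)
      nonneg := sub_nonneg.2 ((pr_le_iff h0).2 hs)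
      val := Pl.val_sub_gen h4
      deg := by rw [bnum_sub, bnum_pr, bnum_nsmul, bnum_add, bnum_nsmul, hk, hE]; ring
      lin := ⟨m, (m + 1) * k, s⁻¹, inv_ne_zero h0, by rw [pr_inv]; module⟩
      lift a ha hj := by
        obtain ⟨m0, h5⟩ := C.lift hR hE hK hk ha hj
        refine ⟨m0, fun q hq => ?_⟩
        have he : a + q • ((m + 1) • (oP P + k • C.E) - pr ℂ s) =
            a + (q * (m + 1)) • (oP P + k • C.E) + pr ℂ (s ^ q)⁻¹ := by
          rw [pr_inv, pr_pow h0]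
          module
        rw [he, add_sub_right_comm, finrank_Sec_add_pr, finrank_Sec_add_pr]
        exact h5 _ (by nlinarith) }
  obtain ⟨q, h6⟩ := h5.free_add (zero_mem _) (Or.inl (bnum_zero _))
  exact ⟨_, h5.nsmul q, by simpa using h6 (q + 1) (by omega)⟩

end Crest.Agent.X262.Min33
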