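import Crest.Agent.X262.Min33.Crv
import Crest.Agent.X277.BD.BrA

/-!
# Row 262, MIN (helper33), part 2: curves on a smooth surface and lifting of sections

* `RRP P b` : the Riemann-Roch input;
* `Cv P κ`  : a prime divisor `E` of the surface `P` with its place;
* `Cv.adj`  : `E² + K E ≥ -2`;
* `Cv.lift` : sections on a `(-1)`-curve lift.
-/

set_option autoImplicit false
set_option linter.unusedSectionVars false

noncomputable section

namespace Crest.Agent.X262.Min33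

open Crest.Agent.X277 Crest.Agent.X277.BD Crest.Agent.X277.BD.Cyc Crest.Agent.X277.Lef
open Crest.Agent.X277.AN.G1 Crest.Agent.X277.BD.Br Module
open Crest.Agent.X277.Cns (Ov)
open scoped KaehlerDifferential

variable {F : Type} [Field F] [Algebra ℂ F] [Algebra.EssFiniteType ℂ F]

/-! ### models -/

section mdl

variable {P : PModel ℂ F} {a : BD ℂ F}

theorem va_oP (P : PModel ℂ F) : VA (oP P) := by
  refine va_mxf ⟨fun f => ?_⟩
  obtain ⟨a, ha, c, hc, -, rfl⟩ := P.frac f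
  have h1 : chart ℂ P.y 0 ≤ (qf ℂ P.y).toSubalgebra := Algebra.adjoin_le (by
    rintro _ ⟨j, rfl⟩
    exact div_mem_qf P.y 0 j)
  exact isAlgebraic_algebraMap (⟨a / c, div_mem (h1 ha) (h1 hc)⟩ : qf ℂ P.y)

theorem on_of_free {h : BD ℂ F} (hh : h ∈ On P) (h1 : Free (a + h)) (h2 : Free (-a + h)) :
    a ∈ On P := fun x => by
  obtain ⟨V, hV, hd⟩ := exists_dom x
  obtain ⟨s, hs, h3⟩ := h1.exists_gen V
  obtain ⟨t, ht, h4⟩ := h2.exists_gen V
  obtain ⟨g, hg⟩ := hh x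
  have h5 : At (a + h + (-a + h)) x (s * t) := by
    have h6 : At (a + h + (-a + h)) x (g * g) := by
      rw [add_add_add_comm, add_neg_cancel, zero_add]
      exact hg.add hg
    exact h6.of_dom hV hd (mul_mem_Sec hs ht) (by rw [map_mul, h3, h4, ← val_add])
  refine ⟨s / g, fun W hW => ?_⟩
  have h6 := h5 W hW
  rw [map_mul, val_add] at h6
  have h7 : W.v s = (a + h).val W := by
    refine le_antisymm (hs W) (not_lt.1 fun h7 => ?_)
    exact ((mul_le_mul_right (ht W) _).trans_lt (mul_lt_mul_of_pos_right h7 (val_pos _ _))).ne h6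
  rw [map_div₀, h7, hg W hW, val_add, mul_div_cancel_right₀ _ (val_ne _ _)]

theorem mem_mdl {M : Mdl ℂ F} (hM : M.H = oP P) : a ∈ M.On ↔ a ∈ On P := by
  constructor
  · intro h
    obtain ⟨m, h1, h2⟩ := Mdl.mem_On_iff.1 h
    rw [hM] at h1 h2
    exact on_of_free (nsmul_mem oP_mem m) h1 h2
  · intro h
    obtain ⟨m, h1⟩ := serre h
    obtain ⟨m', h2⟩ := serre (neg_mem h)
    exact Mdl.mem_On_iff.2 ⟨m + m', hM ▸ h1 _ (by omega), hM ▸ h2 _ (by omega)⟩

theorem dim_eq {n : ℕ} (b : Basis (Fin n) F Ω[F⁄ℂ]) : dim ℂ F = n := by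
  rw [dim, finrank_eq_card_basis b, Fintype.card_fin]

theorem HH_pos (P : PModel ℂ F) (hd : dim ℂ F = 2) : 0 < bnum [oP P, oP P] :=
  bnum_pos (by simp [hd]) (by simpa using ⟨free_oP.nef, (va_oP P).big⟩)

theorem bnum_eff {c : BD ℂ F} (ha : Eff a) (hc : Nef c) : 0 ≤ bnum [a, c] :=
  ha.bnum_nonneg (by simpa using hc)

theorem finrank_eq_zero {c : BD ℂ F} (hc : Nef c) (h : bnum [a, c] < 0) :
    finrank ℂ a.Sec = 0 := by
  by_contra h0
  exact not_le.2 h (bnum_eff (eff_iff_finrank.2 (Nat.pos_of_ne_zero h0)) hc)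

end mdl

/-- Riemann-Roch, Serre duality and Serre vanishing, in terms of `h⁰` -/
def RRP (P : PModel ℂ F) (b : Basis (Fin 2) F Ω[F⁄ℂ]) : Prop :=
  ∃ χ : BD ℂ F → ℤ,
    (∀ a ∈ On P, 2 * χ a = 2 * χ 0 + bnum [a, a] - bnum [a, kP P b]) ∧
    (∀ a ∈ On P, χ a ≤ finrank ℂ a.Sec + finrank ℂ (kP P b - a).Sec) ∧
    ∀ a ∈ On P, ∃ m0 : ℕ, ∀ m, m0 ≤ m → finrank ℂ (a + m • oP P).Sec ≤ χ (a + m • oP P)

/-- a prime divisor of a surface -/
structure Cv (P : PModel ℂ F) (κ : Type) [Field κ] [Algebra ℂ κ] [Algebra.EssFiniteType ℂ κ] where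
  /-- the divisor -/
  E : BD ℂ F
  /-- the place -/
  p : Pl ℂ F ℂ κ
  lnr : Lnr p
  dim1 : dim ℂ κ = 1
  on : E ∈ On P
  nonneg : 0 ≤ E
  pos : 1 < E.val p.V
  ker : ∀ a ∈ On P, ∀ s ∈ a.Sec, p.V.v s < a.val p.V → s ∈ (a - E).Sec
  deg : ∀ a ∈ On P, bnum [a, E] = bnum [p.rs a]

namespace Cv

variable {P : PModel ℂ F} {κ : Type} [Field κ] [Algebra ℂ κ] [Algebra.EssFiniteType ℂ κ]
  (C : Cv P κ) {a : BD ℂ F} {s g : F} {x : Pts P} {b : Basis (Fin 2) F Ω[F⁄ℂ]}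

theorem ker_iff (ha : a ∈ On P) (hs : s ∈ a.Sec) :
    s ∈ (a - C.E).Sec ↔ C.p.V.v s < a.val C.p.V := by
  refine ⟨fun h => (h C.p.V).trans_lt ?_, C.ker a ha s hs⟩
  rw [val_sub, div_lt_iff₀ (val_pos _ _)]
  exact lt_mul_of_one_lt_right (val_pos _ _) C.pos

theorem sub_le (a : BD ℂ F) : (a - C.E).Sec ≤ a.Sec := Sec_mono (sub_le_self a C.nonneg)

theorem r_smul (c : ℂ) {f : F} (hf : f ∈ C.p.V.1) : C.p.r (c • f) = c • C.p.r f := by
  rw [Algebra.smul_def, Pl.r_mul (C.p.V.2 c) hf, C.lnr c, Algebra.smul_def]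

theorem div_mem (hg : C.p.V.v g = a.val C.p.V) (hs : s ∈ a.Sec) : s / g ∈ C.p.V.1 :=
  (RZ.le_iff (ne_of_val hg)).1 (hg ▸ hs _)

/-- restriction of sections -/
def rho (hg : C.p.V.v g = a.val C.p.V) : a.Sec →ₗ[ℂ] κ where
  toFun s := C.p.r (s / g)
  map_add' s t := by
    rw [Submodule.coe_add, add_div, Pl.r_add (C.div_mem hg s.2) (C.div_mem hg t.2)]
  map_smul' c s := by
    rw [Submodule.coe_smul, smul_div_assoc, C.r_smul c (C.div_mem hg s.2), RingHom.id_apply]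

theorem r_eq_zero (ha : a ∈ On P) (hg : C.p.V.v g = a.val C.p.V) (hs : s ∈ a.Sec) :
    C.p.r (s / g) = 0 ↔ s ∈ (a - C.E).Sec := by
  rw [Pl.r_eq_zero (C.div_mem hg hs), C.ker_iff ha hs, map_div₀, hg, div_lt_one₀ (val_pos _ _)]

theorem r_mem (hg : C.p.V.v g = a.val C.p.V) (hs : s ∈ a.Sec) :
    C.p.r (s / g) ∈ (C.p.res (a - pr ℂ g)).Sec :=
  Pl.r_mem_Sec (Pl.val_sub_gen hg) ((mem_Sec_sub_pr (ne_of_val hg)).2
    (by rwa [div_mul_cancel₀ _ (ne_of_val hg)]))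

theorem range_le (hg : C.p.V.v g = a.val C.p.V) :
    LinearMap.range (C.rho hg) ≤ (C.p.res (a - pr ℂ g)).Sec := by
  rintro _ ⟨s, rfl⟩
  exact C.r_mem hg s.2

theorem finrank_rho (ha : a ∈ On P) (hg : C.p.V.v g = a.val C.p.V) :
    finrank ℂ (LinearMap.range (C.rho hg)) + finrank ℂ (a - C.E).Sec = finrank ℂ a.Sec := by
  rw [← (C.rho hg).finrank_range_add_finrank_ker]
  have h1 : LinearMap.ker (C.rho hg) = (a - C.E).Sec.comap a.Sec.subtype :=
    Submodule.ext fun s => C.r_eq_zero ha hg s.2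
  rw [h1, (Submodule.comapSubtypeEquivOfLe (C.sub_le a)).finrank_eq]

theorem deg_res (ha : a ∈ On P) (hg : C.p.V.v g = a.val C.p.V) :
    bnum [C.p.res (a - pr ℂ g)] = bnum [a, C.E] := by
  rw [C.deg a ha, (Pl.lin_rs hg).bnum_eq]

theorem finrank_le (ha : a ∈ On P) :
    (finrank ℂ a.Sec : ℤ) ≤ finrank ℂ (a - C.E).Sec + max (bnum [a, C.E] + 1) 0 := by
  have hg := a.v_gen C.p.V
  have h1 := C.finrank_rho ha hg
  have h2 := Submodule.finrank_mono (C.range_le hg)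
  have h3 := finrank_le' C.dim1 (C.p.res (a - pr ℂ (a.gen C.p.V)))
  rw [C.deg_res ha hg] at h3
  omega

theorem bnum_nef {c : BD ℂ F} (hc : Nef c) : 0 ≤ bnum [c, C.E] :=
  bnum_swap c C.E [] ▸ bnum_eff (eff_of_nonneg C.nonneg) hc

theorem chi_sub {χ : BD ℂ F → ℤ}
    (h : ∀ a ∈ On P, 2 * χ a = 2 * χ 0 + bnum [a, a] - bnum [a, kP P b]) (ha : a ∈ On P) :
    2 * (χ a - χ (a - C.E)) = 2 * bnum [a, C.E] - bnum [C.E, C.E] - bnum [C.E, kP P b] := by
  have h1 := h a ha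
  have h2 := h _ (sub_mem ha C.on)
  rw [bnum_sub, bnum_sub2, bnum_sub2, bnum_sub, bnum_swap C.E a] at h2
  omega

/-- the degree of a curve is positive as soon as it is numerically nontrivial -/
theorem deg_pos (ha : a ∈ On P) (h : bnum [a, C.E] ≠ 0) : 0 < bnum [oP P, C.E] := by
  refine lt_of_le_of_ne (C.bnum_nef free_oP.nef) fun h0 => h ?_
  obtain ⟨m, h1⟩ := serre ha
  obtain ⟨m', h2⟩ := serre (neg_mem ha)
  have h3 := C.bnum_nef (h1 m le_rfl).nef
  have h4 := C.bnum_nef (h2 m' le_rfl).nef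
  rw [bnum_add, bnum_nsmul, ← h0] at h3 h4
  rw [bnum_neg] at h4
  omega

theorem exists_large (hd : dim ℂ F = 2) (c : BD ℂ F) :
    ∃ m0 : ℕ, ∀ m : ℕ, m0 ≤ m → bnum [c - m • oP P, oP P] < 0 := by
  refine ⟨(bnum [c, oP P]).toNat + 1, fun m hm => ?_⟩
  have h1 := HH_pos P hd
  rw [bnum_sub, bnum_nsmul]
  have h2 : bnum [c, oP P] < m := by omega
  nlinarith

/-- **adjunction inequality** -/
theorem adj (hR : RRP P b) : -2 ≤ bnum [C.E, C.E] + bnum [C.E, kP P b] := by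
  obtain ⟨χ, h1, h2, h3⟩ := hR
  obtain ⟨m1, h4⟩ := h3 (-C.E) (neg_mem C.on)
  obtain ⟨m2, h5⟩ := exists_large (P := P) (dim_eq b) (kP P b)
  have ha : (m1 + m2) • oP P ∈ On P := nsmul_mem oP_mem _
  have h6 := C.finrank_le ha
  have h7 := C.chi_sub h1 ha
  have h8 := h2 _ ha
  have h9 := h4 (m1 + m2) (by omega)
  rw [neg_add_eq_sub] at h9
  rw [finrank_eq_zero free_oP.nef (h5 _ (by omega))] at h8
  have h10 := C.bnum_nef ((free_oP (P := P)).nsmul (m1 + m2)).nef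
  omega

variable {k : ℕ}

/-- **lifting of sections** from a `(-1)`-curve -/
theorem lift (hR : RRP P b) (hE : bnum [C.E, C.E] = -1) (hK : bnum [C.E, kP P b] = -1)
    (hk : bnum [oP P, C.E] = k) (ha : a ∈ On P) (hj : -1 ≤ bnum [a, C.E]) :
    ∃ m0 : ℕ, ∀ m : ℕ, m0 ≤ m →
      bnum [a, C.E] + 1 + finrank ℂ (a + m • (oP P + k • C.E) - C.E).Sec ≤
        finrank ℂ (a + m • (oP P + k • C.E)).Sec := by
  obtain ⟨χ, h1, h2, h3⟩ := hR
  have hk0 : 0 < k := by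
    have := C.deg_pos C.on (by omega)
    omega
  obtain ⟨m1, h4⟩ := h3 a ha
  obtain ⟨m2, h5⟩ := exists_large (P := P) (dim_eq b) (kP P b - a)
  refine ⟨m1 + m2 + 1, fun m hm => ?_⟩
  have hD : ∀ i : ℕ, a + m • oP P + i • C.E ∈ On P := fun i =>
    add_mem (add_mem ha (nsmul_mem oP_mem _)) (nsmul_mem C.on _)
  have hd : ∀ i : ℕ, bnum [a + m • oP P + i • C.E, C.E] = bnum [a, C.E] + (m * k : ℕ) - i :=
    fun i => by
      rw [bnum_add, bnum_add, bnum_nsmul, bnum_nsmul, hk, hE]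
      push_cast
      ring
  have hs : ∀ i : ℕ, a + m • oP P + (i + 1) • C.E - C.E = a + m • oP P + i • C.E := fun i => by
    rw [succ_nsmul]
    abel
  have key : ∀ i : ℕ, i ≤ m * k →
      (finrank ℂ (a + m • oP P + i • C.E).Sec : ℤ) ≤ χ (a + m • oP P + i • C.E) := by
    intro i
    induction i with
    | zero =>
      intro _
      rw [zero_nsmul, add_zero]
      exact h4 m (by omega)
    | succ i ih =>
      intro hi
      have h6 := ih (by omega)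
      have h7 := C.finrank_le (hD (i + 1))
      have h8 := C.chi_sub h1 (hD (i + 1))
      rw [hs, hd] at h7 h8
      omega
  obtain ⟨i, hi⟩ : ∃ i, m * k = i + 1 := Nat.exists_eq_succ_of_ne_zero (Nat.mul_pos (by omega) hk0).ne'
  have he : a + m • (oP P + k • C.E) = a + m • oP P + (i + 1) • C.E := by
    rw [← hi, nsmul_add, mul_nsmul', add_assoc]
  have h7 := key i (by omega)
  have h8 := C.chi_sub h1 (hD (i + 1))
  have h9 := h2 _ (hD (i + 1))
  have h10 : finrank ℂ (kP P b - (a + m • oP P + (i + 1) • C.E)).Sec = 0 := by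
    refine finrank_eq_zero (free_oP (P := P)).nef ?_
    have h11 := h5 m (by omega)
    have h12 := C.bnum_nef (free_oP (P := P)).nef
    rw [← sub_sub, ← sub_sub, bnum_sub, bnum_nsmul, bnum_swap C.E]
    have h13 : (0 : ℤ) ≤ (i + 1 : ℕ) * bnum [oP P, C.E] := mul_nonneg (Nat.cast_nonneg _) h12
    omega
  rw [he, hs]
  rw [hs, hd] at h8
  omega

end Cv

end Crest.Agent.X262.Min33
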