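import Crest.Agent.X262.Min33.Cast
import Crest.Agent.X262.Geo.Dv
import Crest.Agent.X262.Sark27.Term
import Crest.Agent.X262.Surf.Defs2

/-!
# Row 262, MIN (helper33), part 5: minimal models of surfaces

* `nef_of_dg`, `exists_neg` : nefness is tested on the primes of a surface;
* `rrp`, `adj`  : Riemann-Roch in the form `RRP`, the adjunction inequality;
* `Cst b P P0 V`, `cast` : the contraction of a `(-1)`-curve;
* `null_ind`, `min_ind`, `exists_min` : induction principles, minimal models;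
* `thMinStmt`, `kStmt`.
-/

set_option autoImplicit false
set_option linter.unusedSectionVars false

noncomputable section

namespace Crest.Agent.X262.Min33

open Crest.Agent.X277 Crest.Agent.X277.BD Crest.Agent.X277.Lef Crest.Agent.X277.Pst
open Crest.Agent.X277.AN.G1 Crest.Agent.X277.BD.Br Module
open Crest.Agent.X277.BD.Cyc (Rf plV lnr_plV)
open Crest.Agent.X262.Geo Crest.Agent.X262.Surf
open Crest.Agent.X262.Mod (IsMod Car)

/-- nefness on a surface is tested on the primes -/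
theorem nef_of_dg {k F : Type} [Field k] [Field F] [Algebra k F] [CharZero k]
    [Algebra.EssFiniteType k F] {H a : BD k F} (hH : IsMod H) (hd : dim k F = 2) (ha : Car H a)
    (h : ∀ V, Prm H V → 0 ≤ dg V [a]) : Nef a := by
  obtain ⟨M, rfl⟩ := hH.va
  refine (Cyc.nef_iff (M := M) (a := ⟨a, Mod.car_mdl.1 ha⟩)).1 (AN.G2.nef_iff.2 fun Z hZ => ?_)
  by_cases h0 : R274.Dim_413.DimLT M.S Z.O 1
  · exact (AN.G2.num_of_dimLT h0 le_rfl).ge
  obtain ⟨D, hD⟩ := AN.G2.exists_pdiv (S := M.S) (Cyc.nrm M) (d := 1) hd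
    (AN.G2H.not_top_sub (S := M.S) (by rw [← hd] at hZ; exact hZ)) h0
  rw [hD.num_eq, ← Cyc.dg_eq hd D (l := [⟨a, Mod.car_mdl.1 ha⟩]) rfl, ← dg_rzD]
  exact h _ (prm_rzD M D)

variable {F : Type} [Field F] [Algebra ℂ F] [Algebra.EssFiniteType ℂ F] {P P0 : PModel ℂ F}
  {b : B2 F} {V W : RZ ℂ F} {a Θ : BD ℂ F}

theorem dg_one (hV : Prm (oP P) V) (ha : a ∈ On P) : dg V [a] = bnum [a, dv P V] :=
  dg_On hV ha (by simp)

theorem nef_of_dv (hd : dim ℂ F = 2) (ha : a ∈ On P)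
    (h : ∀ V, Prm (oP P) V → 0 ≤ bnum [a, dv P V]) : Nef a :=
  nef_of_dg (isMod_oP P) hd (car_of_On ha) fun V hV => dg_one hV ha ▸ h V hV

theorem dv_dv_nonneg (hV : Prm (oP P) V) (h : V ≠ W) : 0 ≤ bnum [dv P W, dv P V] :=
  dg_one hV (dv_mem W) ▸ dg_dv_nonneg hV h (by simp)

theorem nef_dv (ha : Nef a) (V : RZ ℂ F) : 0 ≤ bnum [a, dv P V] :=
  (bnum_eff (eff_of_nonneg (dv_nonneg V)) ha).trans_eq (bnum_swap _ _ _)

theorem oP_dv_pos (hd : dim ℂ F = 2) (hV : Prm (oP P) V) : 0 < bnum [oP P, dv P V] :=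
  dg_one hV oP_mem ▸ dg_oP_pos hV (d := 1) hd

/-- a curve on which a pseudo-effective class is negative is a negative curve -/
theorem sq_neg (hd : dim ℂ F = 2) (ha : Psef a) (h : bnum [a, dv P V] < 0) :
    bnum [dv P V, dv P V] < 0 := not_le.1 fun h1 => not_le.2 h (ha.bnum_nonneg (by
  simpa using nef_of_dv hd (dv_mem V) fun W hW => by
    by_cases h2 : W = V
    · exact h2 ▸ h1
    · exact dv_dv_nonneg hW h2))

theorem exists_neg (hd : dim ℂ F = 2) (ha : a ∈ On P) (h : ¬ Nef a) :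
    ∃ V, Prm (oP P) V ∧ bnum [a, dv P V] < 0 := by
  by_contra! h1
  exact h (nef_of_dv hd ha h1)

/-- a prime divisor as a curve -/
def cv (hd : dim ℂ F = 2) (hV : Prm (oP P) V) [Algebra.EssFiniteType ℂ (Rf V)] : Cv P (Rf V) where
  E := dv P V
  p := plV V
  lnr := lnr_plV V
  dim1 := by
    have := dim_Rf' hV.dvs
    omega
  on := dv_mem V
  nonneg := dv_nonneg V
  pos := one_lt_val_dv_self hV
  ker _ ha _ hs h := mem_Sec_sub_dv ha hs h
  deg a ha := (dg_one hV ha).symm.trans (dg_eq _)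

theorem rrp (hR : RRStmt) (hS : SerStmt) (P : PModel ℂ F) (b : B2 F) : RRP P b := by
  obtain ⟨c, hc⟩ := hR F P b
  have h1 : ∀ a ∈ On P, 2 * (rr P b c a / 2) = rr P b c a := fun a ha => by
    obtain ⟨m, hm⟩ := Filter.eventually_atTop.1 (hc a ha)
    have h1 := hm (2 * m) (by omega)
    have h2 : rr P b c (a + (2 * m) • oP P) = rr P b c a + 2 * (m * (bnum [a, oP P] +
        bnum [oP P, a + (2 * m) • oP P - kP P b])) := by
      simp only [rr]
      rw [bnum_add, bnum_nsmul, add_sub_right_comm a _ (kP P b), bnum_add2, bnum_nsmul2]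
      push_cast
      ring
    omega
  refine ⟨fun a => rr P b c a / 2, fun a ha => ?_, fun a ha => ?_, fun a ha => ?_⟩
  · rw [h1 a ha, h1 0 (zero_mem _), rr, rr, bnum_zero, bnum_sub2]
    ring
  · have h2 := hS F P b c hc a ha
    simp only [h0] at h2 ⊢
    omega
  · obtain ⟨m, hm⟩ := Filter.eventually_atTop.1 (hc a ha)
    refine ⟨m, fun q hq => ?_⟩
    have h2 := hm q hq
    simp only [h0] at h2 ⊢
    omega

/-- **adjunction inequality** -/
theorem adj (hR : RRP P b) (hV : Prm (oP P) V) :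
    -2 ≤ bnum [dv P V, dv P V] + bnum [dv P V, kP P b] :=
  have := essFT_Rf hV.dvs
  (cv (dim_eq b) hV).adj hR

/-- `P0` is the contraction of the `(-1)`-curve `V` of `P` -/
structure Cst (b : B2 F) (P P0 : PModel ℂ F) (V : RZ ℂ F) : Prop where
  prm : Prm (oP P) V
  neg : bnum [dv P V, dv P V] = -1
  can : bnum [dv P V, kP P b] = -1
  le : oP P0 ∈ On P
  on : ∀ a, a ∈ On P0 ↔ a ∈ On P ∧ bnum [a, dv P V] = 0
  prm_iff : ∀ W, Prm (oP P0) W ↔ Prm (oP P) W ∧ W ≠ V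
  kP_eq : kP P b = kP P0 b + dv P V

/-- **Castelnuovo's contraction theorem** -/
theorem cast (hR : RRP P b) (hV : Prm (oP P) V) (h1 : bnum [dv P V, dv P V] < 0)
    (h2 : bnum [dv P V, kP P b] < 0) : ∃ P0, Cst b P P0 V := by
  have := essFT_Rf hV.dvs
  have hd := dim_eq b
  have h3 := adj hR hV
  have hE : bnum [dv P V, dv P V] = -1 := by omega
  have hK : bnum [dv P V, kP P b] = -1 := by omega
  obtain ⟨P0, h⟩ := exists_cast (C := cv hd hV) hR hE hK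
  have h4 : ∀ a, a ∈ On P0 ↔ a ∈ On P ∧ bnum [a, dv P V] = 0 := fun a => h.mem_On_iff rfl
  have h5 : ∀ W, Prm (oP P0) W ↔ Prm (oP P) W ∧ W ≠ V := fun W => by
    constructor
    · refine fun hW => ⟨prm_up h.on hW, ?_⟩
      rintro rfl
      exact (dg_oP_pos hW (d := 1) hd).ne' ((dg_one hV h.on).trans h.deg)
    · rintro ⟨hW, h5⟩
      refine (prm_iff_dg (isMod_oP P0) hW.dvs (d := 1) hd).2 ((dg_one hW h.on).symm ▸ ?_)
      obtain ⟨m, n, w, -, h6⟩ := h.lin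
      have h7 := oP_dv_pos hd hW
      have h8 := dv_dv_nonneg hW h5
      rw [h6, bnum_add, bnum_add, bnum_pr, bnum_nsmul, bnum_nsmul]
      change 0 < _ * _ + _ * bnum [dv P V, dv P W] + 0
      positivity
  refine ⟨P0, hV, hE, hK, h.on, h4, h5, sub_eq_iff_eq_add.1 (eq_On ((h4 _).2
    ⟨sub_mem (kP_mem b) (dv_mem V), by rw [bnum_sub, bnum_swap, hK, hE, sub_self]⟩) (kP_mem b)
      fun W hW => ?_)⟩
  rw [map_sub, od_dv_ne ((h5 W).1 hW).1 ((h5 W).1 hW).2, sub_zero, od_eq_iff hW.dvs]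
  exact Sark27.kP_eq_val b ((h5 W).1 hW).1 hW

namespace Cst

variable (h : Cst b P P0 V)
include h

theorem null (ha : a ∈ On P0) : bnum [a, dv P V] = 0 := ((h.on a).1 ha).2

theorem null' (ha : a ∈ On P0) : bnum [dv P V, a] = 0 := (bnum_swap _ _ _).trans (h.null ha)

theorem kP_mul (ha : a ∈ On P0) : bnum [kP P b, a] = bnum [kP P0 b, a] := by
  rw [h.kP_eq, bnum_add, h.null' ha, add_zero]

theorem kP_sq : bnum [kP P0 b, kP P0 b] = bnum [kP P b, kP P b] + 1 := by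
  rw [← h.kP_mul (kP_mem b), eq_sub_of_add_eq h.kP_eq.symm, bnum_sub2, bnum_swap _ (dv P V), h.can]
  ring

/-- the projection to the contracted surface -/
theorem add_mem (ha : a ∈ On P) : a + bnum [a, dv P V] • dv P V ∈ On P0 :=
  (h.on _).2 ⟨(On P).add_mem ha (zsmul_mem (dv_mem V) _), by
    rw [bnum_add, bnum_zsmul, h.neg]; ring⟩

theorem nef_add (ha : a ∈ On P) (hn : Nef a) : Nef (a + bnum [a, dv P V] • dv P V) :=
  nef_of_dv (dim_eq b) ((h.on _).1 (h.add_mem ha)).1 fun W hW => by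
    by_cases h1 : W = V
    · rw [h1]
      exact (h.null (h.add_mem ha)).ge
    · rw [bnum_add, bnum_zsmul]
      exact add_nonneg (nef_dv hn W) (mul_nonneg (nef_dv hn V) (dv_dv_nonneg hW h1))

theorem Sec_kP (m : ℕ) : (m • kP P b).Sec = (m • kP P0 b).Sec := by
  refine le_antisymm (fun s hs => mem_Sec_On (nsmul_mem (kP_mem b) m) fun W hW => ?_)
    (Sec_mono (nsmul_le_nsmul_right (kP_le b h.le) m))
  have h1 := le_exp_od (V := W) hs
  rwa [map_nsmul, h.kP_eq, map_add, od_dv_ne ((h.prm_iff W).1 hW).1 ((h.prm_iff W).1 hW).2,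
    add_zero, ← map_nsmul] at h1

end Cst

/-- induction on the contractions of `Θ`-null curves -/
theorem null_ind (hΘ : 0 < bnum [Θ, Θ]) {Φ : PModel ℂ F → Prop}
    (h : ∀ P, Θ ∈ On P → (∀ P0 V, Cst b P P0 V → Θ ∈ On P0 → Φ P0) → Φ P) (hP : Θ ∈ On P) :
    Φ P := by
  generalize hn : (bnum [Θ, kP P b] ^ 2 - bnum [Θ, Θ] * bnum [kP P b, kP P b]).toNat = n
  induction n using Nat.strong_induction_on generalizing P with
  | _ n ih =>
    refine h P hP fun P0 V h1 h2 => ih _ ?_ h2 rfl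
    have h3 := hi (Λ := []) (by simp) hΘ (kP P0 b)
    rw [← hn, bnum_swap Θ (kP P b), h1.kP_mul h2, bnum_swap (kP P0 b) Θ,
      eq_sub_of_add_eq h1.kP_sq.symm, mul_sub]
    omega

/-- induction on the contractions of a surface of nonnegative Kodaira dimension -/
theorem min_ind (hR : ∀ P, RRP P b) {m : ℕ} (hm : 0 < m) {Φ : PModel ℂ F → Prop}
    (h1 : ∀ P, Eff (m • kP P b) → Nef (kP P b) → Φ P)
    (h2 : ∀ P P0 V, Cst b P P0 V → Φ P0 → Φ P) (hP : Eff (m • kP P b)) : Φ P := by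
  have hd := dim_eq b
  suffices h : ∀ (n : ℕ) (Q : PModel ℂ F), oP Q ∈ On P → Eff (m • kP Q b) →
      (bnum [kP Q b, oP P]).toNat = n → Φ Q from h _ P oP_mem hP rfl
  intro n
  induction n using Nat.strong_induction_on with
  | _ n ih =>
    intro Q hQ h3 hn
    by_cases h4 : Nef (kP Q b)
    · exact h1 Q h3 h4
    obtain ⟨V, hV, h5⟩ := exists_neg hd (kP_mem b) h4
    obtain ⟨Q0, h6⟩ := cast (hR Q) hV (sq_neg hd (h3.psef.of_nsmul hm) h5) ((bnum_swap _ _ _).trans_lt h5)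
    have h7 : Eff (m • kP Q0 b) := by rwa [Eff, ← h6.Sec_kP]
    refine h2 Q Q0 V h6 (ih _ ?_ Q0 (On_le_iff.2 hQ h6.le) h7 rfl)
    have h8 := (h7.psef.of_nsmul hm).bnum_nonneg (l := [oP P]) (by simpa using free_oP.nef)
    have h9 := od_mul_le (dv_nonneg (P := Q) V) (l := [oP P]) (by simpa using free_oP.nef) hV.dvs
    have h10 := dg_oP_pos (prm_up hQ hV) (d := 1) hd
    rw [od_dv_self hV, one_mul] at h9
    rw [← hn, h6.kP_eq, bnum_add]
    rw [List.replicate_one] at h10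
    omega

/-- **minimal models** -/
theorem exists_min (hR : RRStmt) (hS : SerStmt) {m : ℕ} (hm : 0 < m) (hP : Eff (m • kP P b)) :
    ∃ P0 : PModel ℂ F, oP P0 ∈ On P ∧ Nef (kP P0 b) ∧
      ∀ q : ℕ, (q • kP P b).Sec = (q • kP P0 b).Sec :=
  min_ind (rrp hR hS · b) hm (Φ := fun P => ∃ P0 : PModel ℂ F, oP P0 ∈ On P ∧ Nef (kP P0 b) ∧
    ∀ q : ℕ, (q • kP P b).Sec = (q • kP P0 b).Sec) (fun P _ h => ⟨P, oP_mem, h, fun _ => rfl⟩)
    (fun _ _ _ h ⟨Q, h1, h2, h3⟩ =>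
      ⟨Q, On_le_iff.2 h.le h1, h2, fun q => (h.Sec_kP q).trans (h3 q)⟩) hP

/-- a model without `Θ`-null `(-1)`-curves -/
theorem exists_null_min (hR : ∀ P, RRP P b) (hΘ : 0 < bnum [Θ, Θ]) (hP : Θ ∈ On P) :
    ∃ B : PModel ℂ F, oP B ∈ On P ∧ Θ ∈ On B ∧ ∀ V, Prm (oP B) V → bnum [dv B V, dv B V] < 0 →
      bnum [dv B V, kP B b] < 0 → bnum [Θ, dv B V] ≠ 0 := by
  refine null_ind (b := b) hΘ (Φ := fun P => ∃ B : PModel ℂ F, oP B ∈ On P ∧ Θ ∈ On B ∧
    ∀ V, Prm (oP B) V → bnum [dv B V, dv B V] < 0 → bnum [dv B V, kP B b] < 0 →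
      bnum [Θ, dv B V] ≠ 0) (fun P hP ih => ?_) hP
  by_cases h : ∃ V, Prm (oP P) V ∧ bnum [dv P V, dv P V] < 0 ∧ bnum [dv P V, kP P b] < 0 ∧
      bnum [Θ, dv P V] = 0
  · obtain ⟨V, hV, h1, h2, h3⟩ := h
    obtain ⟨P0, h4⟩ := cast (hR P) hV h1 h2
    obtain ⟨B, h5, h6⟩ := ih P0 V h4 ((h4.on Θ).2 ⟨hP, h3⟩)
    exact ⟨B, On_le_iff.2 h4.le h5, h6⟩
  · exact ⟨P, oP_mem, hP, fun V hV h1 h2 h3 => h ⟨V, hV, h1, h2, h3⟩⟩

theorem thMinStmt (hR : RRStmt) (hS : SerStmt) (hT : ResStmt) : ThMinStmt := by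
  intro F _ _ _ b Θ m h1 h2 h3
  have hd := dim_eq b
  obtain ⟨P, hP⟩ := hT F {Θ}
  obtain ⟨B, -, h4, h5⟩ := exists_null_min (rrp hR hS · b)
    (bnum_pos (by simp [hd]) (by simpa using ⟨h1, h2⟩)) (hP Θ (by simp))
  refine ⟨B, h4, fun i j hij h6 => by_contra fun h7 => ?_⟩
  obtain ⟨V, hV, h8⟩ := exists_neg hd (add_mem (nsmul_mem (kP_mem b) i) (nsmul_mem h4 j)) h7
  have h9 := sq_neg hd h6 h8
  have h10 : 0 ≤ bnum [Θ, dv B V] := nef_dv h1 V
  rw [bnum_add, bnum_nsmul, bnum_nsmul, bnum_swap] at h8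
  have h11 : bnum [dv B V, kP B b] < 0 := not_le.1 fun h11 => not_le.2 h8 (by positivity)
  have h12 := adj (rrp hR hS B b) hV
  have h13 := Int.le_of_dvd (h10.lt_of_ne (h5 V hV h9 h11).symm) (h3 _)
  rw [show bnum [dv B V, kP B b] = -1 by omega] at h8
  have h14 : (i : ℤ) ≤ j * m := by exact_mod_cast hij
  nlinarith

theorem kStmt (hR : RRStmt) (hS : SerStmt) : KStmt := by
  intro F _ _ _ d S P b hP
  have hd := dim_eq b
  have hK : Lin (kP S.P b) 0 := (lin_kP b S.b).trans S.can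
  refine null_ind (b := b) (HH_pos S.P hd) (Φ := fun P => ∀ a ∈ On P, Nef a →
    bnum [a, S.L] ^ 2 ≤ d * (bnum [a, a] + bnum [kP P b, a] ^ 2)) (fun P hP ih a ha hn => ?_) hP
  by_cases h : ∀ V, Prm (oP P) V → Prm (oP S.P) V
  · have h1 : a ∈ On S.P := (eq_On ha (On_le_iff.2 hP (tr_mem a))
      fun V hV => (od_tr (h V hV) a).symm).symm ▸ tr_mem a
    obtain ⟨c, hc⟩ := S.gen a h1
    have h2 := hc _ S.L_on
    have h3 := hc a h1
    rw [bnum_sub, bnum_zsmul] at h2 h3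
    rw [S.L_sq] at h2
    rw [bnum_swap S.L] at h3
    rw [sub_eq_zero.1 h3, sub_eq_zero.1 h2]
    nlinarith [mul_nonneg (Nat.cast_nonneg (α := ℤ) d) (sq_nonneg (bnum [kP P b, a]))]
  obtain ⟨V, hV, h1⟩ := not_forall₂.1 h
  have hD : kP P b - kP S.P b ∈ On P := sub_mem (kP_mem b) (On_le_iff.2 hP (kP_mem b))
  have h2 : ∀ W, Prm (oP S.P) W → (kP P b - kP S.P b).val W = 1 := fun W hW => by
    rw [val_sub, Sark27.kP_eq_val b hW (prm_up hP hW), div_self (val_ne _ _)]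
  have h0 : 0 ≤ kP P b - kP S.P b := sub_nonneg.2 (kP_le b hP)
  obtain ⟨W, hW, h3⟩ := exists_neg hd hD fun h3 => not_le.2 (Sark27.kP_lt_val b hV h1)
    (sub_nonpos.1 (le_of_nef h3 (zero_mem _)
      fun W hW => (od_le_iff hW.dvs).2 (h2 W hW).le) V)
  have h4 : ¬ Prm (oP S.P) W := fun h4 =>
    not_le.2 h3 (dg_one hW hD ▸ dg_nonneg_of h0 (h2 W h4) (by simp))
  obtain ⟨P0, h5⟩ := cast (rrp hR hS P b) hW (sq_neg hd (psef_of_nonneg h0) h3)
    (by rwa [bnum_sub, hK.bnum_eq, bnum_zero, sub_zero, bnum_swap] at h3)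
  have h6 : oP S.P ∈ On P0 := (h5.on _).2
    ⟨hP, (dg_one hW hP).symm.trans (dg_eq_zero free_oP hW.dvs h4 (d := 1) hd)⟩
  have h7 := ih P0 W h5 h6 _ (h5.add_mem ha) (h5.nef_add ha hn)
  have h8 : 0 ≤ bnum [kP P0 b, a + bnum [a, dv P W] • dv P W] := by
    have h8 := bnum_eff (eff_of_nonneg (sub_nonneg.2 (kP_le b h6))) (h5.nef_add ha hn)
    rwa [bnum_sub, hK.bnum_eq, bnum_zero, sub_zero] at h8
  have h9 : 0 ≤ bnum [a, dv P W] := nef_dv hn W
  rw [bnum_add, bnum_zsmul, h5.null' (On_le_iff.2 h6 S.L_on), bnum_add, bnum_zsmul,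
    h5.null' (h5.add_mem ha), bnum_add2, bnum_zsmul2, mul_zero, add_zero, add_zero] at h7
  rw [← h5.kP_mul (h5.add_mem ha), bnum_add2, bnum_zsmul2, bnum_swap (kP P b) (dv P W),
    h5.can] at h7 h8
  refine h7.trans (mul_le_mul_of_nonneg_left ?_ (Nat.cast_nonneg d))
  nlinarith [mul_nonneg h8 h9]

end Crest.Agent.X262.Min33
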